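import Vale.Agent.P050.MathlibUsed

/-!
# P050 dense targets, M2: counting connected sets

General symmetric relation `R` on `ι`, neighbours of `a` contained in the finset `nb a` with at
most `Δ` elements, `z (1+t)^Δ ≤ t`.

* `sum_le`: `∑_{S ∋ v connected} z^|S| ≤ t`.
* `super_le`: `∑_{S ⊇ c, every point of S linked to c inside S} z^|S \ c| ≤ (1+t)^(Δ |c|)`.
-/

set_option linter.all false

namespace P050H625

open Finset

variable {ι : Type*} [DecidableEq ι]

/-- `a` and `b` are both in `S` and related -/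
def Lk (R : ι → ι → Prop) (S : Finset ι) (a b : ι) : Prop := a ∈ S ∧ b ∈ S ∧ R a b

/-- `S` contains `v` and is connected -/
def Con (R : ι → ι → Prop) (S : Finset ι) (v : ι) : Prop :=
  v ∈ S ∧ ∀ a ∈ S, Relation.ReflTransGen (Lk R S) v a

/-- `S` contains `c` and every point of `S` is linked to `c` inside `S` -/
def Over (R : ι → ι → Prop) (c S : Finset ι) : Prop :=
  c ⊆ S ∧ ∀ a ∈ S, ∃ v ∈ c, Relation.ReflTransGen (Lk R S) v a

theorem Lk.symm {R : ι → ι → Prop} (hR : ∀ a b, R a b → R b a) {S : Finset ι} {a b : ι}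
    (h : Lk R S a b) : Lk R S b a := ⟨h.2.1, h.1, hR _ _ h.2.2⟩

theorem Lk.mono {R : ι → ι → Prop} {S T : Finset ι} (hST : S ⊆ T) {a b : ι}
    (h : Lk R S a b) : Lk R T a b := ⟨hST h.1, hST h.2.1, h.2.2⟩

theorem reach_symm {R : ι → ι → Prop} (hR : ∀ a b, R a b → R b a) {S : Finset ι} {a b : ι}
    (h : Relation.ReflTransGen (Lk R S) a b) : Relation.ReflTransGen (Lk R S) b a := by
  induction h with
  | refl => exact Relation.ReflTransGen.refl
  | tail _ h2 ih => exact Relation.ReflTransGen.head (h2.symm hR) ih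

theorem reach_mono {R : ι → ι → Prop} {S T : Finset ι} (hST : S ⊆ T) {a b : ι}
    (h : Relation.ReflTransGen (Lk R S) a b) : Relation.ReflTransGen (Lk R T) a b :=
  Relation.ReflTransGen.mono (fun _ _ h => Lk.mono hST h) _ _ h

/-- a connected set containing `c` (nonempty) is over `c` -/
theorem Con.over {R : ι → ι → Prop} (hR : ∀ a b, R a b → R b a) {c S : Finset ι} {v u : ι}
    (h : Con R S v) (hu : u ∈ c) (hc : c ⊆ S) : Over R c S :=
  ⟨hc, fun a ha => ⟨u, hu, (reach_symm hR (h.2 u (hc hu))).trans (h.2 a ha)⟩⟩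

/-- the component of `a` -/
noncomputable def Kc (R : ι → ι → Prop) (S : Finset ι) (a : ι) : Finset ι :=
  open Classical in S.filter fun b => Relation.ReflTransGen (Lk R S) a b

theorem mem_Kc {R : ι → ι → Prop} {S : Finset ι} {a b : ι} :
    b ∈ Kc R S a ↔ b ∈ S ∧ Relation.ReflTransGen (Lk R S) a b := by
  classical
  simp [Kc]

theorem Kc_eq {R : ι → ι → Prop} (hR : ∀ a b, R a b → R b a) {S : Finset ι} {a b : ι}
    (h : Relation.ReflTransGen (Lk R S) a b) : Kc R S a = Kc R S b := by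
  ext c
  rw [mem_Kc, mem_Kc]
  exact ⟨fun h1 => ⟨h1.1, (reach_symm hR h).trans h1.2⟩, fun h1 => ⟨h1.1, h.trans h1.2⟩⟩

/-- the component is connected -/
theorem Con_Kc {R : ι → ι → Prop} {S : Finset ι} {a : ι} (ha : a ∈ S) : Con R (Kc R S a) a := by
  refine ⟨mem_Kc.2 ⟨ha, Relation.ReflTransGen.refl⟩, ?_⟩
  intro b hb
  have h := (mem_Kc.1 hb).2
  clear hb
  induction h with
  | refl => exact Relation.ReflTransGen.refl
  | tail h1 h2 ih =>
    exact ih.tail ⟨mem_Kc.2 ⟨h2.1, h1⟩, mem_Kc.2 ⟨h2.2.1, h1.tail h2⟩, h2.2.2⟩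

/-- the last exit of a path from `c` -/
theorem exists_exit {R : ι → ι → Prop} {S c : Finset ι} {v a : ι} (hv : v ∈ c)
    (h : Relation.ReflTransGen (Lk R S) v a) :
    a ∈ c ∨ ∃ w ∈ c, ∃ u, R w u ∧ u ∈ S \ c ∧ Relation.ReflTransGen (Lk R (S \ c)) u a := by
  induction h with
  | refl => exact Or.inl hv
  | @tail b d h1 h2 ih =>
    by_cases hd : d ∈ c
    · exact Or.inl hd
    right
    have hdS : d ∈ S \ c := mem_sdiff.2 ⟨h2.2.1, hd⟩
    by_cases hb : b ∈ c
    · exact ⟨b, hb, d, h2.2.2, hdS, Relation.ReflTransGen.refl⟩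
    · rcases ih with h | ⟨w, hw, u, h3, h4, h5⟩
      · exact absurd h hb
      · exact ⟨w, hw, u, h3, h4, h5.tail ⟨mem_sdiff.2 ⟨h2.1, hb⟩, hdS, h2.2.2⟩⟩

/-- decomposition of a set over `c` -/
theorem decomp {R : ι → ι → Prop} (hR : ∀ a b, R a b → R b a) {nb : ι → Finset ι}
    (hnb : ∀ a b, R a b → b ∈ nb a) {S c : Finset ι} (h : Over R c S) :
    ∃ f : ι → Finset ι, (∀ u, f u = ∅ ∨ (f u ⊆ S \ c ∧ Con R (f u) u)) ∧
      S \ c = (c.biUnion nb).biUnion f ∧ (S \ c).card = ∑ u ∈ c.biUnion nb, (f u).card := by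
  classical
  set S' := S \ c with hS'
  set N := c.biUnion nb with hN
  by_cases hS0 : S' = ∅
  · refine ⟨fun _ => ∅, fun _ => Or.inl rfl, ?_, ?_⟩
    · rw [hS0]; ext x; simp
    · rw [hS0]; simp
  obtain ⟨x₀, hx₀⟩ := Finset.nonempty_iff_ne_empty.2 hS0
  let rep : Finset ι → ι := fun K => if h : ∃ u ∈ N, u ∈ K then h.choose else x₀
  have hrep : ∀ K : Finset ι, (∃ u ∈ N, u ∈ K) → rep K ∈ N ∧ rep K ∈ K := by
    intro K hK
    simp only [rep, dif_pos hK]
    exact hK.choose_spec
  let f : ι → Finset ι := fun u => if u ∈ S' ∧ rep (Kc R S' u) = u then Kc R S' u else ∅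
  have hc1 : ∀ u, f u = ∅ ∨ (u ∈ S' ∧ rep (Kc R S' u) = u ∧ f u = Kc R S' u) := by
    intro u
    by_cases hu : u ∈ S' ∧ rep (Kc R S' u) = u
    · exact Or.inr ⟨hu.1, hu.2, if_pos hu⟩
    · exact Or.inl (if_neg hu)
  have hsub : ∀ u, f u ⊆ S' := by
    intro u
    rcases hc1 u with h1 | ⟨_, _, h1⟩
    · rw [h1]; exact empty_subset _
    · rw [h1]; intro b hb; exact (mem_Kc.1 hb).1
  have hun : S' = N.biUnion f := by
    ext a
    rw [mem_biUnion]
    constructor
    · intro haS
      obtain ⟨v, hv, hva⟩ := h.2 a (mem_sdiff.1 haS).1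
      rcases exists_exit hv hva with h1 | ⟨w, hw, u, h1, h2, h3⟩
      · exact absurd h1 (mem_sdiff.1 haS).2
      · have hK : Kc R S' u = Kc R S' a := Kc_eq hR h3
        have hex : ∃ u' ∈ N, u' ∈ Kc R S' a :=
          ⟨u, mem_biUnion.2 ⟨w, hw, hnb _ _ h1⟩, by
            rw [← hK]; exact mem_Kc.2 ⟨h2, Relation.ReflTransGen.refl⟩⟩
        obtain ⟨h4, h5⟩ := hrep _ hex
        refine ⟨rep (Kc R S' a), h4, ?_⟩
        have h6 := mem_Kc.1 h5
        have h7 : Kc R S' (rep (Kc R S' a)) = Kc R S' a := (Kc_eq hR h6.2).symm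
        have h8 : f (rep (Kc R S' a)) = Kc R S' a := by
          simp only [f]
          rw [if_pos ⟨h6.1, by rw [h7]⟩, h7]
        rw [h8]
        exact mem_Kc.2 ⟨haS, Relation.ReflTransGen.refl⟩
    · rintro ⟨u, _, h2⟩
      exact hsub u h2
  have hdis : ∀ u ∈ N, ∀ u' ∈ N, u ≠ u' → Disjoint (f u) (f u') := by
    intro u _ u' _ hne
    rw [Finset.disjoint_left]
    intro b hb hb'
    rcases hc1 u with h1 | ⟨h1, h2, h3⟩
    · rw [h1] at hb; simp at hb
    rcases hc1 u' with h1' | ⟨h1', h2', h3'⟩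
    · rw [h1'] at hb'; simp at hb'
    rw [h3] at hb
    rw [h3'] at hb'
    have e1 := Kc_eq hR (mem_Kc.1 hb).2
    have e2 := Kc_eq hR (mem_Kc.1 hb').2
    apply hne
    rw [← h2, ← h2', e1, e2]
  refine ⟨f, ?_, hun, ?_⟩
  · intro u
    rcases hc1 u with h1 | ⟨h1, h2, h3⟩
    · exact Or.inl h1
    · right
      rw [h3]
      exact ⟨fun b hb => (mem_Kc.1 hb).1, Con_Kc h1⟩
  · conv_lhs => rw [hun]
    exact card_biUnion hdis

/-- the weighted count over `c`, from the weighted count of connected sets -/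
theorem super_aux {R : ι → ι → Prop} (hR : ∀ a b, R a b → R b a) {nb : ι → Finset ι}
    (hnb : ∀ a b, R a b → b ∈ nb a) {z t : ℝ} (hz : 0 ≤ z) (ht : 0 ≤ t) (U c : Finset ι)
    (hcon : ∀ v : ι, ∑ S ∈ (open Classical in (U \ c).powerset.filter fun S => Con R S v),
      z ^ S.card ≤ t) :
    ∑ S ∈ (open Classical in U.powerset.filter fun S => Over R c S), z ^ (S \ c).card ≤
      (1 + t) ^ (c.biUnion nb).card := by
  classical
  set N := c.biUnion nb with hN
  let A : ι → Finset (Finset ι) := fun u => insert ∅ ((U \ c).powerset.filter fun S => Con R S u)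
  have hA : ∀ u, ∑ C ∈ A u, z ^ C.card ≤ 1 + t := by
    intro u
    have hne : (∅ : Finset ι) ∉ (U \ c).powerset.filter fun S => Con R S u := by
      intro h
      have := (mem_filter.1 h).2.1
      simp at this
    simp only [A]
    rw [sum_insert hne, card_empty, pow_zero]
    have := hcon u
    linarith
  set L := U.powerset.filter fun S => Over R c S with hL
  have hdec : ∀ S ∈ L, ∃ f : ι → Finset ι, (∀ u, f u ∈ A u) ∧
      S \ c = N.biUnion f ∧ (S \ c).card = ∑ u ∈ N, (f u).card := by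
    intro S hS
    obtain ⟨hS1, hS2⟩ := mem_filter.1 hS
    obtain ⟨f, h1, h2, h3⟩ := decomp hR hnb hS2
    refine ⟨f, ?_, h2, h3⟩
    intro u
    rcases h1 u with h4 | ⟨h4, h5⟩
    · rw [h4]; exact mem_insert_self _ _
    · refine mem_insert_of_mem (mem_filter.2 ⟨mem_powerset.2 ?_, h5⟩)
      exact h4.trans (sdiff_subset_sdiff (mem_powerset.1 hS1) (Subset.refl _))
  choose! f hc1 hc2 hc3 using hdec
  let Φ : Finset ι → ((u : ι) → u ∈ N → Finset ι) := fun S u _ => f S u
  have hΦinj : Set.InjOn Φ (L : Set (Finset ι)) := by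
    intro S hS S' hS' he
    have he' : ∀ u ∈ N, f S u = f S' u := by
      intro u hu
      exact congrFun (congrFun he u) hu
    have e1 : S \ c = S' \ c := by
      rw [hc2 S hS, hc2 S' hS']
      exact Finset.biUnion_congr rfl he'
    have e2 : c ⊆ S := (mem_filter.1 hS).2.1
    have e3 : c ⊆ S' := (mem_filter.1 hS').2.1
    rw [← sdiff_union_of_subset e2, ← sdiff_union_of_subset e3, e1]
  have hsum : ∑ S ∈ L, z ^ (S \ c).card =
      ∑ p ∈ L.image Φ, ∏ x ∈ N.attach, z ^ (p x.1 x.2).card := by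
    rw [sum_image hΦinj]
    refine sum_congr rfl fun S hS => ?_
    rw [hc3 S hS, ← prod_pow_eq_pow_sum]
    rw [← prod_attach]
  calc ∑ S ∈ L, z ^ (S \ c).card
      = ∑ p ∈ L.image Φ, ∏ x ∈ N.attach, z ^ (p x.1 x.2).card := hsum
    _ ≤ ∑ p ∈ N.pi A, ∏ x ∈ N.attach, z ^ (p x.1 x.2).card := by
        refine sum_le_sum_of_subset_of_nonneg ?_ fun p _ _ => by positivity
        intro p hp
        obtain ⟨S, hS, rfl⟩ := mem_image.1 hp
        rw [mem_pi]
        intro u hu
        exact hc1 S hS u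
    _ = ∏ u ∈ N, ∑ C ∈ A u, z ^ C.card := by
        rw [prod_sum]
    _ ≤ ∏ u ∈ N, (1 + t) :=
        prod_le_prod (fun u _ => sum_nonneg fun C _ => by positivity) fun u _ => hA u
    _ = (1 + t) ^ N.card := by rw [prod_const]

theorem con_iff_over {R : ι → ι → Prop} {S : Finset ι} {v : ι} : Con R S v ↔ Over R {v} S := by
  unfold Con Over
  simp [singleton_subset_iff]

/-- the weighted count of connected sets containing `v` -/
theorem sum_le {R : ι → ι → Prop} (hR : ∀ a b, R a b → R b a) {nb : ι → Finset ι}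
    (hnb : ∀ a b, R a b → b ∈ nb a) {Δ : ℕ} (hΔ : ∀ a, (nb a).card ≤ Δ) {z t : ℝ} (hz : 0 ≤ z)
    (ht : 0 ≤ t) (hzt : z * (1 + t) ^ Δ ≤ t) (U : Finset ι) (v : ι) :
      ∑ S ∈ (open Classical in U.powerset.filter fun S => Con R S v), z ^ S.card ≤ t := by
  classical
  suffices H : ∀ n : ℕ, ∀ U : Finset ι, U.card ≤ n → ∀ v : ι,
      ∑ S ∈ (U.powerset.filter fun S => Con R S v), z ^ S.card ≤ t by
    convert H U.card U le_rfl v
  intro n
  induction n with
  | zero =>
    intro U hU v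
    have hU0 : U = ∅ := card_eq_zero.1 (Nat.le_zero.1 hU)
    subst hU0
    have : (((∅ : Finset ι).powerset.filter fun S => Con R S v)) = ∅ := by
      rw [filter_eq_empty_iff]
      intro S hS hcon
      have hS0 : S = ∅ := by simpa using hS
      have := hcon.1
      rw [hS0] at this
      simp at this
    rw [this, sum_empty]
    exact ht
  | succ n ih =>
    intro U hU v
    by_cases hv : v ∈ U
    swap
    · have : ((U.powerset.filter fun S => Con R S v)) = ∅ := by
        rw [filter_eq_empty_iff]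
        intro S hS hcon
        exact hv (mem_powerset.1 hS hcon.1)
      rw [this, sum_empty]
      exact ht
    have hU'c : (U \ {v}).card ≤ n := by
      rw [sdiff_singleton_eq_erase, card_erase_of_mem hv]; omega
    have h1 := super_aux (R := R) hR hnb hz ht U {v} (by
      intro w
      convert ih (U \ {v}) hU'c w)
    have h2 : ∑ S ∈ (U.powerset.filter fun S => Con R S v), z ^ S.card =
        z * ∑ S ∈ (U.powerset.filter fun S => Over R {v} S), z ^ (S \ {v}).card := by
      rw [mul_sum]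
      refine sum_congr ?_ ?_
      · ext S; simp only [mem_filter, con_iff_over]
      · intro S hS
        have hvS : v ∈ S := (mem_filter.1 hS).2.1 (mem_singleton_self v)
        rw [sdiff_singleton_eq_erase, card_erase_of_mem hvS, ← pow_succ']
        congr 1
        have : 0 < S.card := card_pos.2 ⟨v, hvS⟩
        omega
    rw [h2]
    calc z * ∑ S ∈ (U.powerset.filter fun S => Over R {v} S), z ^ (S \ {v}).card
        ≤ z * (1 + t) ^ (({v} : Finset ι).biUnion nb).card := by
          refine mul_le_mul_of_nonneg_left ?_ hz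
          convert h1
      _ ≤ z * (1 + t) ^ Δ := by
          refine mul_le_mul_of_nonneg_left ?_ hz
          refine pow_le_pow_right₀ (by linarith) ?_
          rw [singleton_biUnion]; exact hΔ v
      _ ≤ t := hzt

/-- the weighted count of the sets over `c` -/
theorem super_le {R : ι → ι → Prop} (hR : ∀ a b, R a b → R b a) {nb : ι → Finset ι}
    (hnb : ∀ a b, R a b → b ∈ nb a) {Δ : ℕ} (hΔ : ∀ a, (nb a).card ≤ Δ) {z t : ℝ} (hz : 0 ≤ z)
    (ht : 0 ≤ t) (hzt : z * (1 + t) ^ Δ ≤ t) (U c : Finset ι) :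
    ∑ S ∈ (open Classical in U.powerset.filter fun S => Over R c S), z ^ (S \ c).card ≤
      (1 + t) ^ (Δ * c.card) := by
  classical
  refine (super_aux hR hnb hz ht U c fun v => sum_le hR hnb hΔ hz ht hzt (U \ c) v).trans ?_
  refine pow_le_pow_right₀ (by linarith) ?_
  rw [mul_comm]
  exact card_biUnion_le_card_mul _ _ _ fun a _ => hΔ a

end P050H625
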