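import Vale.Agent.P050.R2.H300.Defs
import Vale.Agent.P050.R2.H625.Count

set_option linter.all false

/-!
# P050 dense targets, module M2: counting rooted and connected vertex sets
-/

open Finset

namespace Vale.Agent.P050.Dense

section M2
variable {V : Type*} [Fintype V] [DecidableEq V]

/-- adjacency inside `B` -/
def RB (G : SimpleGraph V) (B : Finset V) (a b : V) : Prop := G.Adj a b ∧ a ∈ B ∧ b ∈ B

lemma RB.symm' {G : SimpleGraph V} {B : Finset V} : ∀ a b, RB G B a b → RB G B b a :=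
  fun _ _ h => ⟨h.1.symm, h.2.2, h.2.1⟩

open scoped Classical in
/-- neighbours inside `B` of the elements of `B` -/
noncomputable def nbB (G : SimpleGraph V) (B : Finset V) (a : V) : Finset V :=
  if a ∈ B then nbr G B a else ∅

lemma mem_nbB {G : SimpleGraph V} {B : Finset V} : ∀ a b, RB G B a b → b ∈ nbB G B a := by
  classical
  intro a b h
  unfold nbB nbr
  rw [if_pos h.2.1, mem_filter]
  exact ⟨h.2.2, h.1⟩

lemma card_nbB {G : SimpleGraph V} {B : Finset V} {Δ : ℕ} (hΔ : ∀ b ∈ B, (nbr G B b).card ≤ Δ) :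
    ∀ a, (nbB G B a).card ≤ Δ := by
  classical
  intro a
  unfold nbB
  split_ifs with h
  · exact hΔ a h
  · simp

lemma mem_cnS {G : SimpleGraph V} {B : Finset V} {P : Finset V → Prop} {γ : Finset V} :
    γ ∈ cnS G B P ↔ γ ⊆ B ∧ Cn G γ ∧ P γ := by
  classical
  unfold cnS
  rw [mem_filter, mem_powerset]

lemma mem_rtS {G : SimpleGraph V} {B R S : Finset V} :
    S ∈ rtS G B R ↔ S ⊆ B \ R ∧ Rtd G R S := by
  classical
  unfold rtS
  rw [mem_filter, mem_powerset]

lemma reach_of {G : SimpleGraph V} {B S : Finset V} (hS : S ⊆ B) {u v : V}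
    (h : (Gr G S).Reachable u v) : Relation.ReflTransGen (P050H625.Lk (RB G B) S) u v := by
  rw [SimpleGraph.reachable_iff_reflTransGen] at h
  induction h with
  | refl => exact Relation.ReflTransGen.refl
  | tail _ hab ih => exact ih.tail ⟨hab.2.1, hab.2.2, hab.1, hS hab.2.1, hS hab.2.2⟩

lemma Cn.con {G : SimpleGraph V} {B S : Finset V} (hS : S ⊆ B) (h : Cn G S) {v : V} (hv : v ∈ S) :
    P050H625.Con (RB G B) S v := ⟨hv, fun a ha => reach_of hS (h.2 v hv a ha)⟩

/-- rooted sets -/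
theorem count_rooted (G : SimpleGraph V) (B : Finset V) (Δ : ℕ)
    (hΔ : ∀ b ∈ B, (nbr G B b).card ≤ Δ)
    (x y : ℝ) (hx : 0 ≤ x) (hy : 0 ≤ y) (hxy : x * (1 + y) ^ Δ ≤ y) (R : Finset V) (hR : R ⊆ B) :
    ∑ S ∈ rtS G B R, x ^ S.card ≤ (1 + y) ^ (Δ * R.card) := by
  classical
  have h1 := P050H625.super_le (R := RB G B) RB.symm' (nb := nbB G B) mem_nbB (card_nbB hΔ) hx hy
    hxy B R
  refine le_trans ?_ h1
  have hdis : ∀ S ∈ rtS G B R, Disjoint S R := by
    intro S hS
    rw [mem_rtS] at hS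
    rw [Finset.disjoint_left]
    intro a ha
    exact (mem_sdiff.1 (hS.1 ha)).2
  have hinj : Set.InjOn (fun S => S ∪ R) (rtS G B R : Set (Finset V)) := by
    intro S hS S' hS' he
    have e1 : (S ∪ R) \ R = S := by
      rw [union_sdiff_right, sdiff_eq_self_of_disjoint (hdis S hS)]
    have e2 : (S' ∪ R) \ R = S' := by
      rw [union_sdiff_right, sdiff_eq_self_of_disjoint (hdis S' hS')]
    rw [← e1, ← e2]
    simp only at he
    rw [he]
  calc ∑ S ∈ rtS G B R, x ^ S.card
      = ∑ T ∈ (rtS G B R).image (fun S => S ∪ R), x ^ (T \ R).card := by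
        rw [sum_image hinj]
        refine sum_congr rfl fun S hS => ?_
        rw [union_sdiff_right, sdiff_eq_self_of_disjoint (hdis S hS)]
    _ ≤ _ := by
        refine sum_le_sum_of_subset_of_nonneg ?_ fun _ _ _ => by positivity
        intro T hT
        rw [mem_image] at hT
        obtain ⟨S, hS, rfl⟩ := hT
        rw [mem_rtS] at hS
        have hSB : S ∪ R ⊆ B := union_subset (hS.1.trans sdiff_subset) hR
        rw [mem_filter, mem_powerset]
        refine ⟨hSB, subset_union_right, ?_⟩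
        intro a ha
        rw [mem_union] at ha
        rcases ha with ha | ha
        · obtain ⟨r, hr, hr2⟩ := hS.2 a ha
          exact ⟨r, hr, reach_of hSB hr2.symm⟩
        · exact ⟨a, ha, Relation.ReflTransGen.refl⟩

/-- connected supersets of `C` -/
theorem count_super (G : SimpleGraph V) (B : Finset V) (Δ : ℕ)
    (hΔ : ∀ b ∈ B, (nbr G B b).card ≤ Δ)
    (x y : ℝ) (hx : 0 ≤ x) (hy : 0 ≤ y) (hxy : x * (1 + y) ^ Δ ≤ y) (C : Finset V)
    (hC : C.Nonempty) (hCB : C ⊆ B) :
    ∑ γ ∈ cnS G B (fun γ => C ⊆ γ ∧ C ≠ γ), x ^ (γ.card - C.card) ≤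
      (1 + y) ^ (Δ * C.card) - 1 := by
  classical
  have h1 := P050H625.super_le (R := RB G B) RB.symm' (nb := nbB G B) mem_nbB (card_nbB hΔ) hx hy
    hxy B C
  obtain ⟨c₀, hc₀⟩ := hC
  have hCov : C ∈ B.powerset.filter (fun S => P050H625.Over (RB G B) C S) := by
    rw [mem_filter, mem_powerset]
    exact ⟨hCB, Subset.refl _, fun a ha => ⟨a, ha, Relation.ReflTransGen.refl⟩⟩
  have h2 : ∑ γ ∈ cnS G B (fun γ => C ⊆ γ ∧ C ≠ γ), x ^ (γ.card - C.card) ≤
      ∑ S ∈ (B.powerset.filter (fun S => P050H625.Over (RB G B) C S)).erase C,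
        x ^ (S \ C).card := by
    have h3 : ∑ γ ∈ cnS G B (fun γ => C ⊆ γ ∧ C ≠ γ), x ^ (γ.card - C.card) =
        ∑ γ ∈ cnS G B (fun γ => C ⊆ γ ∧ C ≠ γ), x ^ (γ \ C).card := by
      refine sum_congr rfl fun γ hγ => ?_
      rw [mem_cnS] at hγ
      rw [card_sdiff_of_subset hγ.2.2.1]
    rw [h3]
    refine sum_le_sum_of_subset_of_nonneg ?_ fun _ _ _ => by positivity
    intro γ hγ
    rw [mem_cnS] at hγ
    obtain ⟨hγB, hcn, hsub, hne⟩ := hγ
    rw [mem_erase, mem_filter, mem_powerset]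
    exact ⟨fun h => hne h.symm, hγB,
      (hcn.con hγB (hsub hc₀)).over RB.symm' hc₀ hsub⟩
  have h4 := add_sum_erase _ (fun S => x ^ (S \ C).card) hCov
  have h6 : x ^ (C \ C).card = 1 := by simp
  rw [h6] at h4
  have h5 : ∑ S ∈ (open Classical in B.powerset.filter fun S => P050H625.Over (RB G B) C S),
      x ^ (S \ C).card = ∑ S ∈ B.powerset.filter (fun S => P050H625.Over (RB G B) C S),
      x ^ (S \ C).card := by
    congr 1
  rw [h5] at h1
  linarith

/-- connected sets meeting `T` -/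
theorem count_meet (G : SimpleGraph V) (B : Finset V) (Δ : ℕ)
    (hΔ : ∀ b ∈ B, (nbr G B b).card ≤ Δ)
    (x y : ℝ) (hx : 0 ≤ x) (hy : 0 ≤ y) (hxy : x * (1 + y) ^ Δ ≤ y) (T : Finset V) :
    ∑ γ ∈ cnS G B (fun γ => ¬ Disjoint γ T), x ^ γ.card ≤ T.card * y := by
  classical
  have h1 : ∑ γ ∈ cnS G B (fun γ => ¬ Disjoint γ T), x ^ γ.card ≤
      ∑ v ∈ T, ∑ S ∈ B.powerset.filter (fun S => P050H625.Con (RB G B) S v), x ^ S.card := by
    have h2 : ∀ γ ∈ cnS G B (fun γ => ¬ Disjoint γ T), x ^ γ.card ≤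
        ∑ v ∈ T, if P050H625.Con (RB G B) γ v then x ^ γ.card else 0 := by
      intro γ hγ
      rw [mem_cnS] at hγ
      obtain ⟨hγB, hcn, hd⟩ := hγ
      obtain ⟨v, hv1, hv2⟩ := not_disjoint_iff.1 hd
      have h3 := single_le_sum (f := fun v => if P050H625.Con (RB G B) γ v then x ^ γ.card else 0)
        (fun v _ => by positivity) hv2
      simp only [if_pos (hcn.con hγB hv1)] at h3
      exact h3
    have h4 : cnS G B (fun γ => ¬ Disjoint γ T) ⊆ B.powerset := by
      intro γ hγ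
      exact mem_powerset.2 (mem_cnS.1 hγ).1
    calc ∑ γ ∈ cnS G B (fun γ => ¬ Disjoint γ T), x ^ γ.card
        ≤ ∑ γ ∈ cnS G B (fun γ => ¬ Disjoint γ T),
            ∑ v ∈ T, (if P050H625.Con (RB G B) γ v then x ^ γ.card else 0) := sum_le_sum h2
      _ ≤ ∑ γ ∈ B.powerset,
            ∑ v ∈ T, (if P050H625.Con (RB G B) γ v then x ^ γ.card else 0) :=
          sum_le_sum_of_subset_of_nonneg h4 fun _ _ _ => sum_nonneg fun _ _ => by positivity
      _ = _ := by
          rw [sum_comm]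
          refine sum_congr rfl fun v _ => ?_
          rw [sum_filter]
  refine h1.trans ?_
  calc ∑ v ∈ T, ∑ S ∈ B.powerset.filter (fun S => P050H625.Con (RB G B) S v), x ^ S.card
      ≤ ∑ v ∈ T, y := by
        refine sum_le_sum fun v _ => ?_
        have := P050H625.sum_le (R := RB G B) RB.symm' (nb := nbB G B) mem_nbB (card_nbB hΔ) hx hy
          hxy B v
        convert this
    _ = T.card * y := by rw [sum_const, nsmul_eq_mul]

end M2

end Vale.Agent.P050.Dense
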