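import Vale.Agent.P050.R2.H300.Path

set_option linter.all false

/-!
# P050 dense targets: independence and zero-mean lemmas
-/

open MeasureTheory Finset

namespace Vale.Agent.P050.Dense.H625

open Vale.Agent.P050 Vale.Agent.P050.Dense

section alg

variable {ι : Type*} [DecidableEq ι]

/-- telescoping of a product, in the order given by `o` -/
theorem prod_tel (o : ι → ℕ) (ho : Function.Injective o) (s : Finset ι) (f g : ι → ℝ) :
    ∏ i ∈ s, (f i + g i) = ∏ i ∈ s, f i +
      ∑ i ∈ s, g i * (∏ j ∈ s.filter (fun j => o j < o i), (f j + g j)) *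
        ∏ j ∈ s.filter (fun j => o i < o j), f j := by
  induction s using Finset.induction_on_max_value o with
  | empty => simp
  | insert a s ha hmax ih =>
    have hlt : ∀ x ∈ s, o x < o a := by
      intro x hx
      refine lt_of_le_of_ne (hmax x hx) fun h => ?_
      exact ha (ho h ▸ hx)
    rw [prod_insert ha, prod_insert ha, sum_insert ha, ih]
    have e1 : (insert a s).filter (fun j => o j < o a) = s := by
      ext x
      rw [mem_filter, mem_insert]
      constructor
      · rintro ⟨rfl | h, h2⟩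
        · exact absurd h2 (lt_irrefl _)
        · exact h
      · intro h
        exact ⟨Or.inr h, hlt x h⟩
    have e2 : (insert a s).filter (fun j => o a < o j) = ∅ := by
      rw [filter_eq_empty_iff]
      intro x hx
      rw [mem_insert] at hx
      rcases hx with rfl | hx
      · exact lt_irrefl _
      · exact not_lt.2 (hlt x hx).le
    rw [e1, e2, prod_empty, ih]
    have e3 : ∀ i ∈ s, g i * (∏ j ∈ (insert a s).filter (fun j => o j < o i), (f j + g j)) *
        ∏ j ∈ (insert a s).filter (fun j => o i < o j), f j =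
        f a * (g i * (∏ j ∈ s.filter (fun j => o j < o i), (f j + g j)) *
          ∏ j ∈ s.filter (fun j => o i < o j), f j) := by
      intro i hi
      have h1 : (insert a s).filter (fun j => o j < o i) = s.filter (fun j => o j < o i) := by
        rw [filter_insert, if_neg (not_lt.2 (hlt i hi).le)]
      have h2 : (insert a s).filter (fun j => o i < o j) =
          insert a (s.filter (fun j => o i < o j)) := by
        rw [filter_insert, if_pos (hlt i hi)]
      rw [h1, h2, prod_insert (by rw [mem_filter]; exact fun h => ha h.1)]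
      ring
    rw [sum_congr rfl e3, ← mul_sum]
    ring

theorem prod_one_add_tel (o : ι → ℕ) (ho : Function.Injective o) (s : Finset ι) (g : ι → ℝ) :
    ∏ i ∈ s, (1 + g i) = 1 +
      ∑ i ∈ s, g i * (∏ j ∈ s.filter (fun j => o j < o i), (1 + g j)) := by
  rw [prod_tel o ho s (fun _ => 1) g]
  simp

end alg

section

variable {V : Type*} [Fintype V] [DecidableEq V] {Ω : Type*} [MeasurableSpace Ω]
variable (μ : Measure Ω) [IsProbabilityMeasure μ] {U : Sym2 Ω → ℝ} {κ η : ℝ}

lemma bm_zz (hU : Good U 1) (v w : V) : BM (fun z : V → Ω => U s(z v, z w)) := by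
  simpa using hU.bm_edge (V := V) s(v, w)

lemma bm_zy (hU : Good U 1) (v : V) : BM (fun q : (V → Ω) × Ω => U s(q.1 v, q.2)) :=
  hU.bm_two.comp (Y := (V → Ω) × Ω) (g := fun q => (q.1 v, q.2)) (by fun_prop)

lemma bm_y (hU : Good U 1) (z : V → Ω) (v : V) : BM (fun y : Ω => U s(z v, y)) :=
  (bm_zy hU v).comp (g := fun y => (z, y)) (by fun_prop)

lemma bm_prod_zy (hU : Good U 1) (S : Finset V) :
    BM (fun q : (V → Ω) × Ω => ∏ a ∈ S, (1 + U s(q.1 a, q.2))) :=
  BM.finprod S fun a _ => (BM.const 1).add (bm_zy hU a)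

lemma bm_prod_y (hU : Good U 1) (S : Finset V) (z : V → Ω) :
    BM (fun y : Ω => ∏ a ∈ S, (1 + U s(z a, y))) :=
  BM.finprod S fun a _ => (BM.const 1).add (bm_y hU z a)

lemma bm_Phi (hU : Good U 1) (N : V → Finset V) (S : Finset V) (b : V) :
    BM (Phi μ U N S b) :=
  ((bm_prod_zy hU (N b \ S)).sub (BM.const 1)).integral_right μ

lemma ind_Phi {N : V → Finset V} {S : Finset V} {b v : V} (hv : v ∉ N b \ S) :
    Ind v (Phi μ U N S b) := by
  intro z t
  unfold Phi
  congr 1
  ext y
  congr 1
  refine prod_congr rfl fun a ha => ?_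
  rw [Function.update_of_ne]
  rintro rfl
  exact hv ha

lemma bm_Rdec (hU : Good U 1) (N : V → Finset V) (o : V → ℕ) (b a' a : V) :
    BM (Rdec U N o b a' a : (V → Ω) → ℝ) :=
  BM.finprod _ fun c _ => (BM.const 1).add (bm_zz hU c b)

lemma ind_Rdec {N : V → Finset V} {o : V → ℕ} {b a' a v : V} (hvb : v ≠ b)
    (hv : v ∉ ((N b).erase a').filter (fun c => o c < o a)) :
    Ind v (Rdec U N o b a' a : (V → Ω) → ℝ) := by
  intro z t
  unfold Rdec
  refine prod_congr rfl fun c hc => ?_
  rw [Function.update_of_ne (Ne.symm hvb), Function.update_of_ne]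
  rintro rfl
  exact hv hc

lemma bm_core (hU : Good U 1) (N : V → Finset V) (o : V → ℕ) (a₀ : V) :
    ∀ L : List (V × V), BM (core U N o a₀ L : (V → Ω) → ℝ)
  | [] => BM.const 1
  | (b, a) :: L => by
    have := (((bm_zz hU (lastA a₀ L) b).mul (bm_zz hU b a)).mul
      (bm_Rdec hU N o b (lastA a₀ L) a)).mul (bm_core hU N o a₀ L)
    exact this

lemma lastA_mem {N : V → Finset V} {γ : Finset V} {a₀ : V} {L : List (V × V)}
    (hP : Pth N γ a₀ L) (hL : L ≠ []) : ∃ b ∈ Bs L, lastA a₀ L ∈ N b := by
  cases L with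
  | nil => exact absurd rfl hL
  | cons p L =>
    obtain ⟨b, a⟩ := p
    exact ⟨b, by simp [Bs], hP.2.2.2.2.1⟩

lemma ind_core {N : V → Finset V} {γ : Finset V} {o : V → ℕ} {a₀ v : V} (hv0 : v ≠ a₀) :
    ∀ {L : List (V × V)}, Pth N γ a₀ L → v ∉ Bs L → (∀ b ∈ Bs L, v ∉ N b) →
      Ind v (core U N o a₀ L : (V → Ω) → ℝ)
  | [], _, _, _ => fun z t => rfl
  | (b, a) :: L, hP, hvL, hN => by
    have hB : Bs ((b, a) :: L) = insert b (Bs L) := by simp [Bs]
    rw [hB, mem_insert, not_or] at hvL
    rw [hB] at hN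
    have h1 : Ind v (core U N o a₀ L : (V → Ω) → ℝ) :=
      ind_core hv0 hP.1 hvL.2 (fun b' hb' => hN b' (mem_insert_of_mem hb'))
    have hvb := hN b (mem_insert_self _ _)
    have hva : v ≠ a := by
      rintro rfl
      exact hvb hP.2.2.2.2.1
    have hvl : v ≠ lastA a₀ L := by
      rintro rfl
      exact hvb hP.2.2.2.1
    have h2 : Ind v (Rdec U N o b (lastA a₀ L) a : (V → Ω) → ℝ) := by
      refine ind_Rdec hvL.1 ?_
      intro h
      exact hvb (mem_of_mem_erase (mem_filter.1 h).1)
    intro z t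
    simp only [core]
    rw [h1 z t, h2 z t, Function.update_of_ne (Ne.symm hvl), Function.update_of_ne (Ne.symm hvL.1),
      Function.update_of_ne (Ne.symm hva)]

lemma bm_JJ (hU : Good U 1) (N : V → Finset V) (o : V → ℕ) (fl : Bool) (γ : Finset V) (a₀ : V)
    (L : List (V × V)) : BM (JJ μ U N o fl γ a₀ L) :=
  (bm_core hU N o a₀ L).mul (BM.finprod _ fun b _ => bm_Phi μ hU N _ b)

lemma Ind.mul' {v : V} {f g : (V → Ω) → ℝ} (hf : Ind v f) (hg : Ind v g) :
    Ind v (fun z => f z * g z) := fun z t => by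
  show f _ * g _ = f _ * g _
  rw [hf z t, hg z t]

lemma Ind.prod' {κ : Type*} {v : V} (s : Finset κ) {f : κ → (V → Ω) → ℝ}
    (hf : ∀ i ∈ s, Ind v (f i)) : Ind v (fun z => ∏ i ∈ s, f i z) := fun z t =>
  prod_congr rfl fun i hi => hf i hi z t

lemma ind_eval {v w : V} (h : v ≠ w) (g : Ω → ℝ) : Ind v (fun z : V → Ω => g (z w)) := fun z t => by
  show g _ = g _
  rw [Function.update_of_ne (Ne.symm h)]

/-- a factor with zero mean in the coordinate `v` -/
lemma integral_zero_of (v : V) {F R : (V → Ω) → ℝ} (hF : BM F) (hR : BM R) (hRv : Ind v R)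
    (h0 : ∀ z : V → Ω, ∫ t, F (Function.update z v t) ∂μ = 0) :
    ∫ z, F z * R z ∂(piM V μ) = 0 := by
  rw [integral_update μ v (hF.mul hR)]
  have : ∀ z : V → Ω, ∫ t, F (Function.update z v t) * R (Function.update z v t) ∂μ = 0 := by
    intro z
    have : ∀ t, R (Function.update z v t) = R z := fun t => hRv z t
    simp only [this]
    rw [integral_mul_const, h0, zero_mul]
  simp only [this, integral_zero]

/-- replacing an inner integral by a coordinate -/
lemma integral_inner (v : V) {h : (V → Ω) × Ω → ℝ} {R : (V → Ω) → ℝ} (hh : BM h) (hR : BM R)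
    (hRv : Ind v R) (hhv : ∀ t, Ind v (fun z => h (z, t))) :
    ∫ z, (∫ y, h (z, y) ∂μ) * R z ∂(piM V μ) = ∫ z, h (z, z v) * R z ∂(piM V μ) := by
  have hb : BM (fun z : V → Ω => h (z, z v) * R z) :=
    (hh.comp (g := fun z : V → Ω => (z, z v)) (measurable_id.prodMk (measurable_pi_apply v))).mul hR
  rw [integral_update μ v hb]
  congr 1
  ext z
  have h1 : ∀ t, R (Function.update z v t) = R z := fun t => hRv z t
  have h2 : ∀ t, h (Function.update z v t, Function.update z v t v) = h (z, t) := by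
    intro t
    rw [Function.update_self]
    exact hhv t z t
  simp only [h1, h2]
  rw [integral_mul_const]

end

end Vale.Agent.P050.Dense.H625
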