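import Vale.Agent.P050.R2.H625.Cnt2
import Vale.Agent.P050.R2.H625.IndL
import Vale.Agent.P050.R2.H602.JJ
import Vale.Agent.P050.R2.H928.Expand

set_option linter.all false

/-!
# P050 dense targets, phase 2: polymer bound without powers of `D` (no 4-cycles)
-/

open MeasureTheory Finset

namespace Vale.Agent.P050.Dense.H625c

open Vale.Agent.P050 Vale.Agent.P050.Dense

variable {V : Type*} [Fintype V] [DecidableEq V] {Ω : Type*} [MeasurableSpace Ω]
variable (μ : Measure Ω) [IsProbabilityMeasure μ] {U : Sym2 Ω → ℝ} {κ η : ℝ}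
variable {N : V → Finset V} {B γ : Finset V} {D : ℕ}

lemma a0_mem {a₀ : V} : ∀ {L : List (V × V)}, Pth N γ a₀ L → L ≠ [] → ∃ b' ∈ Bs L, a₀ ∈ N b'
  | [], _, h => absurd rfl h
  | [(b, a)], hP, _ => ⟨b, by simp [Bs], hP.2.2.2.1⟩
  | (b, a) :: p :: L, hP, _ => by
    obtain ⟨b', h1, h2⟩ := a0_mem hP.1 (by simp)
    exact ⟨b', by rw [Bs_cons]; exact mem_insert_of_mem h1, h2⟩

/-- the last vertex of the path must be shared -/
theorem JJ_zero_last (hN : Bip N B D) (hU : Ker μ U κ η) (hγ : γ ⊆ B) {o : V → ℕ} {fl : Bool}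
    {g : Ω → ℝ} (hgm : BM g) {a₀ : V} (ha₀ : a₀ ∉ B) {L : List (V × V)} (hL : L ≠ [])
    (hP : Pth N γ a₀ L) (hs : ¬ Shd N γ (fstB L a₀) (lastA a₀ L)) :
    ∫ z, g (z a₀) * JJ μ U N o fl γ a₀ L z ∂(piM V μ) = 0 := by
  obtain ⟨⟨b, a⟩, L, rfl⟩ := List.exists_cons_of_ne_nil hL
  have hs' : ∀ b' ∈ γ, b' ≠ b → a ∉ N b' := fun b' h1 h2 h3 => hs ⟨b', h1, h2, h3⟩
  obtain ⟨hP1, hb, hbL, hlN, haN, hne⟩ := hP
  have hbB : b ∈ B := hγ hb
  have haB : a ∉ B := hN.out b hbB a haN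
  have hab : a ≠ b := fun h => haB (h ▸ hbB)
  have haL : ∀ b' ∈ Bs L, a ∉ N b' := fun b' hb' =>
    hs' b' (Bs_sub hP1 hb') fun h => hbL (h ▸ hb')
  have haa : a ≠ a₀ := by
    by_cases hLn : L = []
    · subst hLn
      exact hne
    · rintro rfl
      obtain ⟨b', h1, h2⟩ := a0_mem hP1 hLn
      exact haL b' h1 h2
  have i1 : Ind a (core U N o a₀ L : (V → Ω) → ℝ) :=
    H625.ind_core haa hP1 (fun h => haB (hγ (Bs_sub hP1 h))) haL
  have i2 : Ind a (Rdec U N o b (lastA a₀ L) a : (V → Ω) → ℝ) :=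
    H625.ind_Rdec hab fun h => lt_irrefl _ (mem_filter.1 h).2
  have hre : ∀ z, g (z a₀) * JJ μ U N o fl γ a₀ ((b, a) :: L) z = U s(z b, z a) *
      ((g (z a₀) * (U s(z (lastA a₀ L), z b) * (Rdec U N o b (lastA a₀ L) a z *
        core U N o a₀ L z))) *
      ∏ b' ∈ γ \ Bs ((b, a) :: L), Phi μ U N (rem N o fl a₀ b' ((b, a) :: L)) b' z) := by
    intro z
    simp only [JJ, core]
    ring
  simp only [hre]
  have bR : BM (fun z : V → Ω => (g (z a₀) * (U s(z (lastA a₀ L), z b) *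
      (Rdec U N o b (lastA a₀ L) a z * core U N o a₀ L z))) *
      ∏ b' ∈ γ \ Bs ((b, a) :: L), Phi μ U N (rem N o fl a₀ b' ((b, a) :: L)) b' z) :=
    ((hgm.comp (measurable_pi_apply a₀)).mul ((H625.bm_zz hU.good _ _).mul
      ((H625.bm_Rdec hU.good N o _ _ _).mul (H625.bm_core hU.good N o a₀ L)))).mul
      (BM.finprod _ fun b' _ => H625.bm_Phi μ hU.good N _ b')
  refine H625.integral_zero_of μ a (H625.bm_zz hU.good b a) bR ?_ ?_
  · refine H625.Ind.mul' (H625.Ind.mul' (H625.ind_eval haa g) (H625.Ind.mul' ?_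
      (H625.Ind.mul' i2 i1))) (H625.Ind.prod' _ fun b' hb' => ?_)
    · intro z t
      show U s(_, _) = U s(_, _)
      rw [Function.update_of_ne (Ne.symm hne), Function.update_of_ne (Ne.symm hab)]
    · rw [mem_sdiff, Bs_cons, mem_insert, not_or] at hb'
      exact H625.ind_Phi μ fun h => hs' b' hb'.1 hb'.2.1 (mem_sdiff.1 h).1
  · intro z
    simp only [Function.update_self, Function.update_of_ne (Ne.symm hab)]
    exact hU.zero (z b)

/-- the first vertex of the path must be shared -/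
lemma core_first (hN : Bip N B D) (hU : Ker μ U κ η) (hγ : γ ⊆ B) {o : V → ℕ} {a₀ b₁ a₁ : V}
    (hb₁ : b₁ ∈ γ) (ha₀ : a₀ ∉ B) (hs : ∀ b' ∈ γ, b' ≠ b₁ → a₀ ∉ N b') :
    ∀ (M : List (V × V)), Pth N γ a₀ (M ++ [(b₁, a₁)]) →
      ∃ R : (V → Ω) → ℝ, BM R ∧ Ind a₀ R ∧ ∀ z, core U N o a₀ (M ++ [(b₁, a₁)]) z =
        U s(z a₀, z b₁) * R z
  | [], hP => by
    obtain ⟨hP1, hb, hbL, hlN, haN, hne⟩ := hP
    have h01 : a₀ ≠ b₁ := fun h => ha₀ (h ▸ hγ hb₁)
    have h02 : a₀ ≠ a₁ := Ne.symm hne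
    refine ⟨fun z => U s(z b₁, z a₁) * Rdec U N o b₁ a₀ a₁ z,
      (H625.bm_zz hU.good _ _).mul (H625.bm_Rdec hU.good N o _ _ _), ?_, ?_⟩
    · refine H625.Ind.mul' ?_ (H625.ind_Rdec h01 fun h => ?_)
      · intro z t
        show U s(_, _) = U s(_, _)
        rw [Function.update_of_ne (Ne.symm h01), Function.update_of_ne (Ne.symm h02)]
      · exact notMem_erase _ _ (mem_filter.1 h).1
    · intro z
      show U s(z a₀, z b₁) * U s(z b₁, z a₁) * Rdec U N o b₁ a₀ a₁ z * 1 = _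
      ring
  | (b, a) :: M, hP => by
    obtain ⟨hP1, hb, hbL, hlN, haN, hne⟩ := hP
    obtain ⟨R, r1, r2, r3⟩ := core_first hN hU hγ hb₁ ha₀ hs M hP1
    have hbb : b ≠ b₁ := by
      rintro rfl
      apply hbL
      show b ∈ Bs (M ++ [(b, a₁)])
      simp [Bs]
    have h0 : a₀ ∉ N b := hs b hb hbb
    have h01 : a₀ ≠ b := fun h => ha₀ (h ▸ hγ hb)
    have h02 : a₀ ≠ a := fun h => h0 (h ▸ haN)
    have h03 : a₀ ≠ lastA a₀ (M ++ [(b₁, a₁)]) := fun h => h0 (by rw [h]; exact hlN)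
    refine ⟨fun z => U s(z (lastA a₀ (M ++ [(b₁, a₁)])), z b) * (U s(z b, z a) *
      (Rdec U N o b (lastA a₀ (M ++ [(b₁, a₁)])) a z * R z)),
      (H625.bm_zz hU.good _ _).mul ((H625.bm_zz hU.good _ _).mul
        ((H625.bm_Rdec hU.good N o _ _ _).mul r1)), ?_, ?_⟩
    · refine H625.Ind.mul' ?_ (H625.Ind.mul' ?_ (H625.Ind.mul' (H625.ind_Rdec h01 fun h => ?_) r2))
      · intro z t
        show U s(_, _) = U s(_, _)
        rw [Function.update_of_ne (Ne.symm h01), Function.update_of_ne (Ne.symm h03)]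
      · intro z t
        show U s(_, _) = U s(_, _)
        rw [Function.update_of_ne (Ne.symm h01), Function.update_of_ne (Ne.symm h02)]
      · exact h0 (mem_of_mem_erase (mem_filter.1 h).1)
    · intro z
      show U s(z (lastA a₀ (M ++ [(b₁, a₁)])), z b) * U s(z b, z a) *
        Rdec U N o b (lastA a₀ (M ++ [(b₁, a₁)])) a z * core U N o a₀ (M ++ [(b₁, a₁)]) z = _
      rw [r3 z]
      ring

theorem JJ_zero_first (hN : Bip N B D) (hU : Ker μ U κ η) (hγ : γ ⊆ B) {o : V → ℕ} {fl : Bool}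
    {a₀ b₁ a₁ : V} (hb₁ : b₁ ∈ γ) (ha₀ : a₀ ∉ B) (M : List (V × V))
    (hP : Pth N γ a₀ (M ++ [(b₁, a₁)])) (hs : ¬ Shd N γ b₁ a₀) :
    ∫ z, JJ μ U N o fl γ a₀ (M ++ [(b₁, a₁)]) z ∂(piM V μ) = 0 := by
  have hs' : ∀ b' ∈ γ, b' ≠ b₁ → a₀ ∉ N b' := fun b' h1 h2 h3 => hs ⟨b', h1, h2, h3⟩
  obtain ⟨R, r1, r2, r3⟩ := core_first μ hN hU hγ (o := o) hb₁ ha₀ hs' M hP
  have h01 : a₀ ≠ b₁ := fun h => ha₀ (h ▸ hγ hb₁)
  have hre : ∀ z, JJ μ U N o fl γ a₀ (M ++ [(b₁, a₁)]) z = U s(z a₀, z b₁) *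
      (R z * ∏ b' ∈ γ \ Bs (M ++ [(b₁, a₁)]),
        Phi μ U N (rem N o fl a₀ b' (M ++ [(b₁, a₁)])) b' z) := by
    intro z
    simp only [JJ, r3]
    ring
  simp only [hre]
  refine H625.integral_zero_of μ a₀ (H625.bm_zz hU.good a₀ b₁)
    (r1.mul (BM.finprod _ fun b' _ => H625.bm_Phi μ hU.good N _ b')) ?_ ?_
  · refine H625.Ind.mul' r2 (H625.Ind.prod' _ fun b' hb' => ?_)
    rw [mem_sdiff] at hb'
    refine H625.ind_Phi μ fun h => hs' b' hb'.1 ?_ (mem_sdiff.1 h).1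
    rintro rfl
    apply hb'.2
    simp [Bs]
  · intro z
    simp only [Function.update_self, Function.update_of_ne (Ne.symm h01)]
    have := hU.zero (z b₁)
    simp only [two_symm U (z b₁)] at this
    exact this

end Vale.Agent.P050.Dense.H625c

namespace Vale.Agent.P050.Dense

open Vale.Agent.P050 Vale.Agent.P050.Dense.H625c

variable {V : Type*} [Fintype V] [DecidableEq V] {Ω : Type*} [MeasurableSpace Ω]
variable (μ : Measure Ω) [IsProbabilityMeasure μ] {U : Sym2 Ω → ℝ} {κ η : ℝ}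

/-- polymer bound without powers of `D`, for `k ≥ 3` -/
theorem phi_bound3 {N : V → Finset V} {B γ : Finset V} {D : ℕ} (hN : Bip N B D)
    (hU : Ker μ U κ η) {σ : ℝ} (hn : Num D κ η σ) (hσ : 0 < σ)
    (hγ : γ ⊆ B) (hne : γ.Nonempty) {k : ℕ} (hk : 3 ≤ k) (hg : GC N γ k) :
    |phi μ U N γ| ≤ (γ.card : ℝ) ^ 5 * 2 ^ k * σ ^ (γ.card - k) * ck μ U k := by
  classical
  obtain ⟨b, hb⟩ := hne
  obtain ⟨o, ho⟩ : ∃ o : V → ℕ, Function.Injective o :=
    ⟨fun v => (Fintype.equivFin V v : ℕ), fun u v h =>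
      (Fintype.equivFin V).injective (Fin.ext h)⟩
  set K : ℝ := 2 ^ k * σ ^ (γ.card - k) * ck μ U k with hKd
  have hK : 0 ≤ K := by
    have := ck_nonneg μ (U := U) k
    positivity
  let F : V → List (V × V) → ℝ := fun a₀ L => ∫ z, JJ μ U N o false γ a₀ L z ∂(piM V μ)
  let good : V → List (V × V) → Prop := fun a₀ L =>
    Shd N γ (fstB L a₀) (lastA a₀ L) ∧ Shd N γ b a₀
  have hpth : ∀ a₀ ∈ N b, ∀ a ∈ (N b).filter (fun a => o a < o a₀), Pth N γ a₀ [(b, a)] := by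
    intro a₀ ha₀ a ha
    obtain ⟨ha1, ha2⟩ := mem_filter.1 ha
    exact ⟨trivial, hb, by simp [Bs], ha₀, ha1, fun h => by
        subst h; exact lt_irrefl _ ha2⟩
  have ha₀B : ∀ a₀ ∈ N b, a₀ ∉ B := fun a₀ ha₀ => hN.out b (hγ hb) a₀ ha₀
  have hsum : ∀ a₀ ∈ N b, ∀ a ∈ (N b).filter (fun a => o a < o a₀),
      F a₀ [(b, a)] = ∑ L' ∈ Ext N γ a₀ (k - 1) [(b, a)], F a₀ L' := by
    intro a₀ ha₀ a ha
    refine sum_ext (F a₀) 1 k ?_ (k - 1) [(b, a)] (hpth a₀ ha₀ a ha) (by simp)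
      (by simp only [List.length_cons, List.length_nil]; omega)
    intro L hL h1 h2
    have := expand_step μ hN hU hγ ho (by omega : 2 ≤ k) hg (fl := false) (g := fun _ => 1)
      (BM.const 1) (by simp) (ha₀B a₀ ha₀) hL (by omega)
      (Or.inr (by rintro rfl; simp at h1)) (by simp)
    simpa only [one_mul] using this
  have hbound : ∀ a₀ ∈ N b, ∀ a ∈ (N b).filter (fun a => o a < o a₀),
      ∀ L' ∈ Ext N γ a₀ (k - 1) [(b, a)], |F a₀ L'| ≤ if good a₀ L' then K else 0 := by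
    intro a₀ ha₀ a ha L' hL'
    have hP := ext_pth _ (hpth a₀ ha₀ a ha) hL'
    have hlen : L'.length = k := by
      rw [ext_len hL']
      simp only [List.length_cons, List.length_nil]; omega
    have hLne : L' ≠ [] := by
      rintro rfl; simp at hlen; omega
    split_ifs with hgd
    · exact JJ_bound2 μ hN hU hn hσ hγ ho (by omega) hg (ha₀B a₀ ha₀) hP hlen
    · rw [not_and_or] at hgd
      rcases hgd with h | h
      · have h1 := JJ_zero_last μ hN hU hγ (o := o) (fl := false) (g := fun _ => 1) (BM.const 1)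
          (ha₀B a₀ ha₀) hLne hP h
        simp only [one_mul] at h1
        have h2 : F a₀ L' = 0 := h1
        rw [h2, abs_zero]
      · obtain ⟨M, hM, rfl⟩ := ext_form _ hL'
        have h2 : F a₀ (M ++ [(b, a)]) = 0 :=
          JJ_zero_first μ hN hU hγ hb (ha₀B a₀ ha₀) M hP h
        rw [h2, abs_zero]
  -- the sum
  have h1 : |phi μ U N γ| ≤ ∑ a₀ ∈ N b, ∑ a ∈ (N b).filter (fun a => o a < o a₀),
      ∑ L' ∈ Ext N γ a₀ (k - 1) [(b, a)], (if good a₀ L' then K else 0) := by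
    rw [expand_first μ hN hU hγ ho hb]
    refine (abs_sum_le_sum_abs _ _).trans (sum_le_sum fun a₀ ha₀ => ?_)
    refine (abs_sum_le_sum_abs _ _).trans (sum_le_sum fun a ha => ?_)
    have h2 : ∫ z, JJ μ U N o false γ a₀ [(b, a)] z ∂(piM V μ) =
        ∑ L' ∈ Ext N γ a₀ (k - 1) [(b, a)], F a₀ L' := hsum a₀ ha₀ a ha
    rw [h2]
    exact (abs_sum_le_sum_abs _ _).trans (sum_le_sum fun L' hL' => hbound a₀ ha₀ a ha L' hL')
  -- the count
  let S : Finset (Σ _ : V, Σ _ : V, List (V × V)) := (N b).sigma fun a₀ =>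
    ((N b).filter (fun a => o a < o a₀)).sigma fun a =>
      (Ext N γ a₀ (k - 1) [(b, a)]).filter (fun L' => good a₀ L')
  have h2 : ∑ a₀ ∈ N b, ∑ a ∈ (N b).filter (fun a => o a < o a₀),
      ∑ L' ∈ Ext N γ a₀ (k - 1) [(b, a)], (if good a₀ L' then K else 0) = S.card * K := by
    have e1 : S.card = ∑ a₀ ∈ N b, ∑ a ∈ (N b).filter (fun a => o a < o a₀),
        ((Ext N γ a₀ (k - 1) [(b, a)]).filter (fun L' => good a₀ L')).card := by
      simp only [S]
      rw [card_sigma]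
      refine sum_congr rfl fun a₀ _ => ?_
      rw [card_sigma]
    rw [e1]
    push_cast
    rw [sum_mul]
    refine sum_congr rfl fun a₀ _ => ?_
    rw [sum_mul]
    refine sum_congr rfl fun a _ => ?_
    rw [← sum_filter, sum_const, nsmul_eq_mul]
  have h3 : S.card ≤ γ.card ^ 5 := by
    let f : (Σ _ : V, Σ _ : V, List (V × V)) → V × List (V × V) := fun s => (s.1, s.2.2)
    have hinj : Set.InjOn f (S : Set (Σ _ : V, Σ _ : V, List (V × V))) := by
      rintro ⟨a₀, a, L⟩ hs ⟨a₀', a', L'⟩ hs' he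
      simp only [f, Prod.mk.injEq] at he
      obtain ⟨e1, e2⟩ := he
      subst e1
      subst e2
      have m1 := (mem_sigma.1 hs).2
      have m2 := (mem_sigma.1 hs').2
      have m3 := (mem_filter.1 (mem_sigma.1 m1).2).1
      have m4 := (mem_filter.1 (mem_sigma.1 m2).2).1
      have := ext_disj (by simp) m3 m4
      simp only [List.cons.injEq, Prod.mk.injEq, and_true, true_and] at this
      subst this
      rfl
    rw [← card_image_of_injOn hinj]
    refine first_count hN hγ hk hg hb _ ?_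
    intro p hp
    rw [mem_image] at hp
    obtain ⟨⟨a₀, a, L⟩, hs, rfl⟩ := hp
    obtain ⟨m0, m1⟩ := mem_sigma.1 hs
    obtain ⟨m2, m3⟩ := mem_sigma.1 m1
    obtain ⟨m4, m5⟩ := mem_filter.1 m3
    simp only at m0 m2 m4 m5
    obtain ⟨M, hM, hM2⟩ := ext_form _ m4
    refine ⟨ext_pth _ (hpth a₀ m0 a m2) m4, ?_, m5.1, m0, m5.2, M, a, hM2⟩
    show L.length = k
    rw [ext_len m4]
    simp only [List.length_cons, List.length_nil]; omega
  calc |phi μ U N γ| ≤ S.card * K := h1.trans h2.le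
    _ ≤ (γ.card : ℝ) ^ 5 * K := by
        refine mul_le_mul_of_nonneg_right ?_ hK
        exact_mod_cast h3
    _ = (γ.card : ℝ) ^ 5 * 2 ^ k * σ ^ (γ.card - k) * ck μ U k := by
        rw [hKd]; ring

end Vale.Agent.P050.Dense
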