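import Vale.Agent.P050.R2.H261.Close

set_option linter.all false

/-!
# P050 dense targets, phase 2: the number of valid paths does not depend on `D`

Two short paths with the same ends in a graph without short cycles are equal.
-/

open Finset

namespace Vale.Agent.P050.Dense.H625c

open Vale.Agent.P050 Vale.Agent.P050.Dense

section graph

variable {V : Type*} [DecidableEq V]

/-- uniqueness of short paths in a graph of large girth -/
theorem path_unique {G : SimpleGraph V} {k : ℕ}
    (hg : ∀ (v : V) (c : G.Walk v v), c.IsCycle → 2 * k ≤ c.length) {u v : V} (p q : G.Walk u v)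
    (hp : p.IsPath) (hq : q.IsPath) (hl : p.length + q.length < 2 * k) :
    p.support = q.support := by
  classical
  let E : Set (Sym2 V) := {e | e ∈ p.edges ∨ e ∈ q.edges}
  let G' : SimpleGraph V := SimpleGraph.fromEdgeSet E
  have hE : ∀ e, e ∈ E → e ∈ G.edgeSet := by
    rintro e (h | h)
    · exact p.edges_subset_edgeSet h
    · exact q.edges_subset_edgeSet h
  have hE' : ∀ e, e ∈ E → e ∈ G'.edgeSet := by
    intro e he
    rw [SimpleGraph.edgeSet_fromEdgeSet]
    exact ⟨he, G.not_isDiag_of_mem_edgeSet (hE e he)⟩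
  have hG'E : ∀ e, e ∈ G'.edgeSet → e ∈ E := by
    intro e he
    rw [SimpleGraph.edgeSet_fromEdgeSet] at he
    exact he.1
  have hp' : ∀ e ∈ p.edges, e ∈ G'.edgeSet := fun e he => hE' e (Or.inl he)
  have hq' : ∀ e ∈ q.edges, e ∈ G'.edgeSet := fun e he => hE' e (Or.inr he)
  by_cases hac : G'.IsAcyclic
  · have h := hac.path_unique ⟨p.transfer G' hp', hp.transfer hp'⟩ ⟨q.transfer G' hq', hq.transfer hq'⟩
    have h2 : p.transfer G' hp' = q.transfer G' hq' := congrArg Subtype.val h
    rw [← p.support_transfer hp', h2, q.support_transfer hq']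
  · exfalso
    unfold SimpleGraph.IsAcyclic at hac
    push Not at hac
    obtain ⟨w, c, hc⟩ := hac
    have hcE : ∀ e ∈ c.edges, e ∈ E := fun e he => hG'E e (c.edges_subset_edgeSet he)
    have hcG : ∀ e ∈ c.edges, e ∈ G.edgeSet := fun e he => hE e (hcE e he)
    have h1 := hg w (c.transfer G hcG) (hc.transfer hcG)
    rw [SimpleGraph.Walk.length_transfer] at h1
    have h2 : c.edges.length ≤ (p.edges ++ q.edges).length := by
      refine List.Subperm.length_le ?_
      refine List.Nodup.subperm hc.isTrail.edges_nodup ?_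
      intro e he
      rw [List.mem_append]
      exact hcE e he
    rw [List.length_append, SimpleGraph.Walk.length_edges, SimpleGraph.Walk.length_edges,
      SimpleGraph.Walk.length_edges] at h2
    omega

/-- uniqueness of short paths, list form -/
theorem list_unique {G : SimpleGraph V} {k : ℕ}
    (hg : ∀ (v : V) (c : G.Walk v v), c.IsCycle → 2 * k ≤ c.length) {l l' : List V}
    (hne : l ≠ []) (hne' : l' ≠ []) (hc : l.IsChain G.Adj) (hc' : l'.IsChain G.Adj)
    (hn : l.Nodup) (hn' : l'.Nodup) (hh : l.head hne = l'.head hne')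
    (ht : l.getLast hne = l'.getLast hne') (hlen : l.length + l'.length < 2 * k + 2) : l = l' := by
  have e1 := SimpleGraph.Walk.support_ofSupport hne hc
  have e2 := SimpleGraph.Walk.support_ofSupport hne' hc'
  have l1 := SimpleGraph.Walk.length_ofSupport hne hc
  have l2 := SimpleGraph.Walk.length_ofSupport hne' hc'
  have h := path_unique hg (SimpleGraph.Walk.ofSupport l hne hc)
    ((SimpleGraph.Walk.ofSupport l' hne' hc').copy hh.symm ht.symm)
    (by rw [SimpleGraph.Walk.isPath_def, e1]; exact hn)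
    (by rw [SimpleGraph.Walk.isPath_def, SimpleGraph.Walk.support_copy, e2]; exact hn')
    (by
      rw [SimpleGraph.Walk.length_copy, l1, l2]
      have := List.length_pos_of_ne_nil hne
      have := List.length_pos_of_ne_nil hne'
      omega)
  rw [SimpleGraph.Walk.support_copy, e1, e2] at h
  exact h

/-- two long lists which agree at two near places agree in between -/
theorem interval_unique {G : SimpleGraph V} {k : ℕ}
    (hg : ∀ (v : V) (c : G.Walk v v), c.IsCycle → 2 * k ≤ c.length) {x x' : List V}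
    (hc : x.IsChain G.Adj) (hc' : x'.IsChain G.Adj) (hn : x.Nodup) (hn' : x'.Nodup)
    {i j : ℕ} (hij : i ≤ j) (hj : j < x.length) (hj' : j < x'.length)
    (hi1 : x[i]'(hij.trans_lt hj) = x'[i]'(hij.trans_lt hj')) (hj1 : x[j] = x'[j])
    (hk : j - i < k) (t : ℕ) (h1 : i ≤ t) (h2 : t ≤ j) :
    x[t]'(h2.trans_lt hj) = x'[t]'(h2.trans_lt hj') := by
  have hlen : ∀ y : List V, j < y.length → ((y.drop i).take (j - i + 1)).length = j - i + 1 := by
    intro y hy
    rw [List.length_take, List.length_drop]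
    omega
  have hne : ∀ y : List V, j < y.length → (y.drop i).take (j - i + 1) ≠ [] := by
    intro y hy h
    have := hlen y hy
    rw [h] at this
    simp at this
  have hget : ∀ (y : List V) (hy : j < y.length) (s : ℕ) (hs : s < ((y.drop i).take (j - i + 1)).length),
      ((y.drop i).take (j - i + 1))[s] = y[i + s]'(by rw [hlen y hy] at hs; omega) := by
    intro y hy s hs
    rw [List.getElem_take, List.getElem_drop]
  have h := list_unique hg (l := (x.drop i).take (j - i + 1)) (l' := (x'.drop i).take (j - i + 1))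
    (hne x hj) (hne x' hj') ((hc.drop i).take _) ((hc'.drop i).take _)
    ((hn.sublist (List.drop_sublist i x)).sublist (List.take_sublist _ _))
    ((hn'.sublist (List.drop_sublist i x')).sublist (List.take_sublist _ _))
    (by
      rw [List.head_eq_getElem, List.head_eq_getElem, hget x hj, hget x' hj']
      simpa using hi1)
    (by
      rw [List.getLast_eq_getElem, List.getLast_eq_getElem, hget x hj, hget x' hj']
      have e1 : i + (((x.drop i).take (j - i + 1)).length - 1) = j := by
        rw [hlen x hj]; omega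
      have e2 : i + (((x'.drop i).take (j - i + 1)).length - 1) = j := by
        rw [hlen x' hj']; omega
      simp only [e1, e2]
      exact hj1)
    (by rw [hlen x hj, hlen x' hj']; omega)
  have hs : t - i < ((x.drop i).take (j - i + 1)).length := by rw [hlen x hj]; omega
  have hs' : t - i < ((x'.drop i).take (j - i + 1)).length := by rw [hlen x' hj']; omega
  have e := hget x hj (t - i) hs
  have e' := hget x' hj' (t - i) hs'
  have ht : i + (t - i) = t := by omega
  simp only [ht] at e e'
  rw [← e, ← e']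
  simp only [h]

end graph

section pth

variable {V : Type*} [Fintype V] [DecidableEq V]

lemma vts_eq (a₀ : V) (L : List (V × V)) :
    vts a₀ L = L.flatMap (fun p => [p.2, p.1]) ++ [a₀] := by
  induction L with
  | nil => rfl
  | cons p L ih =>
    obtain ⟨b, a⟩ := p
    simp [vts, ih]

lemma vts_length (a₀ : V) (L : List (V × V)) : (vts a₀ L).length = 2 * L.length + 1 := by
  induction L with
  | nil => rfl
  | cons p L ih =>
    obtain ⟨b, a⟩ := p
    simp only [vts, List.length_cons, ih]
    ring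

lemma vts_ne (a₀ : V) (L : List (V × V)) : vts a₀ L ≠ [] := by
  intro h
  have := vts_length a₀ L
  rw [h] at this
  simp at this

lemma vts_head (a₀ : V) (L : List (V × V)) : (vts a₀ L).head (vts_ne a₀ L) = lastA a₀ L := by
  cases L with
  | nil => rfl
  | cons p L => obtain ⟨b, a⟩ := p; rfl

lemma vts_inj {a₀ a₀' : V} : ∀ {L L' : List (V × V)}, vts a₀ L = vts a₀' L' → a₀ = a₀' ∧ L = L'
  | [], [], h => by simpa [vts] using h
  | [], (b, a) :: L', h => by
    have := congrArg List.length h
    simp only [vts_length, List.length_cons, List.length_nil] at this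
    omega
  | (b, a) :: L, [], h => by
    have := congrArg List.length h
    simp only [vts_length, List.length_cons, List.length_nil] at this
    omega
  | (b, a) :: L, (b', a') :: L', h => by
    simp only [vts, List.cons.injEq] at h
    obtain ⟨h1, h2⟩ := vts_inj h.2.2
    exact ⟨h1, by rw [h.1, h.2.1, h2]⟩

variable {N : V → Finset V} {B γ : Finset V} {D : ℕ}

lemma pth_append {a₀ : V} : ∀ {L L' : List (V × V)}, Pth N γ a₀ (L ++ L') → Pth N γ a₀ L'
  | [], _, h => h
  | (b, a) :: L, L', h => pth_append (L := L) h.1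

lemma Bs_cons (b a : V) (L : List (V × V)) : Bs ((b, a) :: L) = insert b (Bs L) := by simp [Bs]

lemma Bs_sub {a₀ : V} : ∀ {L : List (V × V)}, Pth N γ a₀ L → Bs L ⊆ γ
  | [], _ => by simp [Bs]
  | (b, a) :: L, hP => by
    rw [Bs_cons]
    exact insert_subset hP.2.1 (Bs_sub hP.1)

lemma lastA_mem {a₀ : V} {L : List (V × V)}
    (hP : Pth N γ a₀ L) (hL : L ≠ []) : ∃ b ∈ Bs L, lastA a₀ L ∈ N b := by
  cases L with
  | nil => exact absurd rfl hL
  | cons p L =>
    obtain ⟨b, a⟩ := p
    exact ⟨b, by simp [Bs], hP.2.2.2.2.1⟩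

lemma lastA_notMem (hN : Bip N B D) (hγ : γ ⊆ B) {a₀ : V} (ha₀ : a₀ ∉ B) {L : List (V × V)}
    (hP : Pth N γ a₀ L) : lastA a₀ L ∉ B := by
  by_cases hL : L = []
  · rw [hL]; exact ha₀
  · obtain ⟨b, hb, hb2⟩ := lastA_mem hP hL
    exact hN.out b (hγ (Bs_sub hP hb)) _ hb2

lemma vts_chain (hN : Bip N B D) (hγ : γ ⊆ B) {a₀ : V} :
    ∀ {L : List (V × V)}, Pth N γ a₀ L → (vts a₀ L).IsChain (HG N γ).Adj
  | [], _ => List.IsChain.singleton _
  | (b, a) :: L, hP => by
    have h1 := vts_chain hN hγ hP.1
    have e1 : (HG N γ).Adj a b := (H261.adj_HG hN hγ hP.2.1 hP.2.2.2.2.1).symm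
    have e2 : (HG N γ).Adj b (lastA a₀ L) := H261.adj_HG hN hγ hP.2.1 hP.2.2.2.1
    show List.IsChain _ (a :: b :: vts a₀ L)
    refine List.IsChain.cons_cons e1 ?_
    obtain ⟨y, l, hy⟩ := List.exists_cons_of_ne_nil (vts_ne a₀ L)
    have hy2 : y = lastA a₀ L := by
      have := vts_head a₀ L
      simp only [hy, List.head_cons] at this
      exact this
    rw [hy] at h1 ⊢
    exact List.IsChain.cons_cons (hy2 ▸ e2) h1

/-- all the `a`-vertices of `vts` are the ends of suffixes -/
lemma mem_vts {a₀ v : V} : ∀ {L : List (V × V)}, v ∈ vts a₀ L →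
    v ∈ Bs L ∨ ∃ L' L'', L = L' ++ L'' ∧ v = lastA a₀ L''
  | [], h => by
    right
    refine ⟨[], [], rfl, ?_⟩
    simpa [vts, lastA] using h
  | (b, a) :: L, h => by
    simp only [vts, List.mem_cons] at h
    rcases h with h | h | h
    · exact Or.inr ⟨[], (b, a) :: L, rfl, h⟩
    · left; rw [h, Bs_cons]; exact mem_insert_self _ _
    · rcases mem_vts h with h | ⟨L', L'', h1, h2⟩
      · left; rw [Bs_cons]; exact mem_insert_of_mem h
      · exact Or.inr ⟨(b, a) :: L', L'', by rw [h1]; rfl, h2⟩

lemma vts_nodup (hN : Bip N B D) (hγ : γ ⊆ B) {k : ℕ} (hk : 2 ≤ k) (hg : GC N γ k) {a₀ : V}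
    (ha₀ : a₀ ∉ B) :
    ∀ {L : List (V × V)}, Pth N γ a₀ L → L.length < k → (vts a₀ L).Nodup
  | [], _, _ => by simp [vts]
  | (b, a) :: L, hP, hl => by
    have ih := vts_nodup hN hγ hk hg ha₀ hP.1 (by simp only [List.length_cons] at hl; omega)
    have haN : a ∈ N b := hP.2.2.2.2.1
    have hbB : b ∈ B := hγ hP.2.1
    have haB : a ∉ B := hN.out b hbB a haN
    simp only [vts, List.nodup_cons, List.mem_cons, not_or]
    refine ⟨⟨?_, ?_⟩, ?_, ih⟩
    · rintro rfl; exact haB hbB
    · intro h
      rcases mem_vts h with h | ⟨L', L'', h1, h2⟩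
      · exact haB (hγ (Bs_sub hP.1 h))
      · have e : (b, a) :: L = ((b, a) :: L') ++ L'' := by rw [h1]; rfl
        have h3 := pth_close hN hγ hk hg (a₀ := a₀) (L₁ := (b, a) :: L') (L₂ := L'')
          (by rw [← e]; exact hP) (by simp) (by rw [← e]; exact h2)
        rw [h1] at hl
        simp only [List.length_cons, List.length_append] at h3 hl
        omega
    · intro h
      rcases mem_vts h with h | ⟨L', L'', h1, h2⟩
      · exact hP.2.2.1 h
      · have h4 : Pth N γ a₀ L'' := pth_append (L := L') (h1 ▸ hP.1)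
        exact lastA_notMem hN hγ ha₀ h4 (h2 ▸ hbB)

/-- the vertices without the last one -/
def tl (a₀ : V) : List (V × V) → List V
  | [] => []
  | (b, _) :: L => b :: vts a₀ L

lemma tl_length (a₀ : V) {L : List (V × V)} (hL : L ≠ []) : (tl a₀ L).length = 2 * L.length := by
  obtain ⟨⟨b, a⟩, L, rfl⟩ := List.exists_cons_of_ne_nil hL
  simp only [tl, List.length_cons, vts_length]
  ring

lemma tl_chain (hN : Bip N B D) (hγ : γ ⊆ B) {a₀ : V} {L : List (V × V)} (hL : L ≠ [])
    (hP : Pth N γ a₀ L) : (tl a₀ L).IsChain (HG N γ).Adj := by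
  obtain ⟨⟨b, a⟩, L, rfl⟩ := List.exists_cons_of_ne_nil hL
  exact (vts_chain hN hγ hP).tail

lemma tl_nodup (hN : Bip N B D) (hγ : γ ⊆ B) {k : ℕ} (hk : 2 ≤ k) (hg : GC N γ k) {a₀ : V}
    (ha₀ : a₀ ∉ B) {L : List (V × V)} (hL : L ≠ [])
    (hP : Pth N γ a₀ L) (hl : L.length ≤ k) : (tl a₀ L).Nodup := by
  obtain ⟨⟨b, a⟩, L, rfl⟩ := List.exists_cons_of_ne_nil hL
  have ih := vts_nodup hN hγ hk hg ha₀ hP.1 (by simp only [List.length_cons] at hl; omega)
  have hbB : b ∈ B := hγ hP.2.1
  simp only [tl, List.nodup_cons]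
  refine ⟨?_, ih⟩
  intro h
  rcases mem_vts h with h | ⟨L', L'', h1, h2⟩
  · exact hP.2.2.1 h
  · have h4 : Pth N γ a₀ L'' := pth_append (L := L') (h1 ▸ hP.1)
    exact lastA_notMem hN hγ ha₀ h4 (h2 ▸ hbB)

/-- the places of the `b`'s -/
lemma vts_odd {a₀ : V} : ∀ {L : List (V × V)}, Pth N γ a₀ L → ∀ (i : ℕ)
    (h : 2 * i + 1 < (vts a₀ L).length), (vts a₀ L)[2 * i + 1] ∈ γ
  | [], _, i, h => by simp [vts] at h
  | (b, a) :: L, hP, 0, h => by simpa [vts] using hP.2.1
  | (b, a) :: L, hP, i + 1, h => by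
    have h' : 2 * i + 1 < (vts a₀ L).length := by
      simp only [vts, List.length_cons] at h
      omega
    have := vts_odd hP.1 i h'
    have e : 2 * (i + 1) + 1 = (2 * i + 1) + 1 + 1 := by ring
    simp only [vts, e, List.getElem_cons_succ]
    exact this

lemma tl_even {a₀ : V} {L : List (V × V)} (hP : Pth N γ a₀ L) (i : ℕ)
    (h : 2 * i < (tl a₀ L).length) : (tl a₀ L)[2 * i] ∈ γ := by
  cases L with
  | nil => simp [tl] at h
  | cons p L =>
    obtain ⟨b, a⟩ := p
    cases i with
    | zero => simpa [tl] using hP.2.1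
    | succ i =>
      have h' : 2 * i + 1 < (vts a₀ L).length := by
        simp only [tl, List.length_cons] at h
        omega
      have := vts_odd hP.1 i h'
      have e : 2 * (i + 1) = (2 * i + 1) + 1 := by ring
      simp only [tl, e, List.getElem_cons_succ]
      exact this

/-- no 4-cycles: two vertices of `γ` have at most one common neighbour -/
lemma common_unique (hN : Bip N B D) (hγ : γ ⊆ B) {k : ℕ} (hk : 3 ≤ k) (hg : GC N γ k)
    {b b' a a' : V} (hb : b ∈ γ) (hb' : b' ∈ γ) (hbb : b ≠ b') (h1 : a ∈ N b) (h2 : a ∈ N b')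
    (h3 : a' ∈ N b) (h4 : a' ∈ N b') : a = a' := by
  have hne : ∀ c, c ∈ N b → b ≠ c ∧ b' ≠ c := by
    intro c hc
    have hcB := hN.out b (hγ hb) c hc
    exact ⟨fun h => hcB (h ▸ hγ hb), fun h => hcB (h ▸ hγ hb')⟩
  have h := list_unique (G := HG N γ) (k := k) hg (l := [b, a, b']) (l' := [b, a', b'])
    (by simp) (by simp)
    (by
      refine List.IsChain.cons_cons (H261.adj_HG hN hγ hb h1) (List.IsChain.cons_cons
        (H261.adj_HG hN hγ hb' h2).symm (List.IsChain.singleton _)))
    (by
      refine List.IsChain.cons_cons (H261.adj_HG hN hγ hb h3) (List.IsChain.cons_cons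
        (H261.adj_HG hN hγ hb' h4).symm (List.IsChain.singleton _)))
    (by simp [(hne a h1).1, hbb, Ne.symm (hne a h1).2])
    (by simp [(hne a' h3).1, hbb, Ne.symm (hne a' h3).2])
    (by simp) (by simp) (by simp; omega)
  simpa using h

end pth

end Vale.Agent.P050.Dense.H625c
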