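import Vale.Agent.P050.R2.H625.Cnt1

set_option linter.all false

/-!
# P050 dense targets, phase 2: the number of valid paths does not depend on `D` (counts)
-/

open Finset

namespace Vale.Agent.P050.Dense.H625c

open Vale.Agent.P050 Vale.Agent.P050.Dense

variable {V : Type*} [Fintype V] [DecidableEq V]

lemma getD_lt {α : Type*} (l : List α) (d : α) {i : ℕ} (h : i < l.length) :
    l.getD i d = l[i] := by
  simp [List.getD, List.getElem?_eq_getElem h]

/-- all extensions of the path `L` by `j` double steps -/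
noncomputable def Ext (N : V → Finset V) (γ : Finset V) (a₀ : V) :
    ℕ → List (V × V) → Finset (List (V × V))
  | 0, L => {L}
  | j + 1, L => ((γ \ Bs L).filter (fun b => lastA a₀ L ∈ N b)).biUnion fun b =>
      ((N b).erase (lastA a₀ L)).biUnion fun a => Ext N γ a₀ j ((b, a) :: L)

variable {N : V → Finset V} {B γ : Finset V} {D : ℕ}

lemma ext_form {a₀ : V} : ∀ (j : ℕ) {L L' : List (V × V)}, L' ∈ Ext N γ a₀ j L →
    ∃ M, M.length = j ∧ L' = M ++ L
  | 0, L, L', h => by
    simp only [Ext, mem_singleton] at h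
    exact ⟨[], rfl, by simp [h]⟩
  | j + 1, L, L', h => by
    simp only [Ext, mem_biUnion] at h
    obtain ⟨b, hb, a, ha, h⟩ := h
    obtain ⟨M, h1, h2⟩ := ext_form j h
    exact ⟨M ++ [(b, a)], by simp [h1], by simp [h2]⟩

lemma ext_pth {a₀ : V} : ∀ (j : ℕ) {L L' : List (V × V)}, Pth N γ a₀ L → L' ∈ Ext N γ a₀ j L →
    Pth N γ a₀ L'
  | 0, L, L', hP, h => by
    simp only [Ext, mem_singleton] at h
    rw [h]; exact hP
  | j + 1, L, L', hP, h => by
    simp only [Ext, mem_biUnion] at h
    obtain ⟨b, hb, a, ha, h⟩ := h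
    obtain ⟨hb1, hb2⟩ := mem_filter.1 hb
    obtain ⟨hb3, hb4⟩ := mem_sdiff.1 hb1
    exact ext_pth j (L := (b, a) :: L)
      ⟨hP, hb3, hb4, hb2, mem_of_mem_erase ha, ne_of_mem_erase ha⟩ h

lemma ext_len {a₀ : V} {j : ℕ} {L L' : List (V × V)} (h : L' ∈ Ext N γ a₀ j L) :
    L'.length = j + L.length := by
  obtain ⟨M, h1, h2⟩ := ext_form j h
  rw [h2, List.length_append, h1]

/-- the extensions of different paths of the same length are different -/
lemma ext_disj {a₀ : V} {j : ℕ} {L₁ L₂ L' : List (V × V)} (hl : L₁.length = L₂.length)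
    (h1 : L' ∈ Ext N γ a₀ j L₁) (h2 : L' ∈ Ext N γ a₀ j L₂) : L₁ = L₂ := by
  obtain ⟨M, e1, e2⟩ := ext_form j h1
  obtain ⟨M', e1', e2'⟩ := ext_form j h2
  rw [e2] at e2'
  exact (List.append_inj e2' (by rw [e1, e1'])).2

/-- a function with the step identity is the sum over the extensions -/
theorem sum_ext {a₀ : V} (F : List (V × V) → ℝ) (i n : ℕ)
    (hstep : ∀ L, Pth N γ a₀ L → i ≤ L.length → L.length < n →
      F L = ∑ b ∈ (γ \ Bs L).filter (fun b => lastA a₀ L ∈ N b),
        ∑ a ∈ (N b).erase (lastA a₀ L), F ((b, a) :: L)) :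
    ∀ (j : ℕ) (L : List (V × V)), Pth N γ a₀ L → i ≤ L.length → L.length + j = n →
      F L = ∑ L' ∈ Ext N γ a₀ j L, F L'
  | 0, L, _, _, _ => by simp [Ext]
  | j + 1, L, hP, hi, hn => by
    rw [hstep L hP hi (by omega), Ext, sum_biUnion]
    · refine sum_congr rfl fun b hb => ?_
      rw [sum_biUnion]
      · refine sum_congr rfl fun a ha => ?_
        obtain ⟨hb1, hb2⟩ := mem_filter.1 hb
        obtain ⟨hb3, hb4⟩ := mem_sdiff.1 hb1
        exact sum_ext F i n hstep j ((b, a) :: L)
          ⟨hP, hb3, hb4, hb2, mem_of_mem_erase ha, ne_of_mem_erase ha⟩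
          (by simp only [List.length_cons]; omega) (by simp only [List.length_cons]; omega)
      · intro a ha a' ha' hne
        rw [Function.onFun, disjoint_left]
        intro L' h1 h2
        have := ext_disj (L₁ := (b, a) :: L) (L₂ := (b, a') :: L) (by simp) h1 h2
        simp only [List.cons.injEq, Prod.mk.injEq] at this
        exact hne this.1.2
    · intro b hb b' hb' hne
      rw [Function.onFun, disjoint_left]
      intro L' h1 h2
      rw [mem_biUnion] at h1 h2
      obtain ⟨a, _, h1⟩ := h1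
      obtain ⟨a', _, h2⟩ := h2
      have := ext_disj (L₁ := (b, a) :: L) (L₂ := (b', a') :: L) (by simp) h1 h2
      simp only [List.cons.injEq, Prod.mk.injEq] at this
      exact hne this.1.1

/-- `a` is a neighbour of a vertex of `γ` other than `b` -/
def Shd (N : V → Finset V) (γ : Finset V) (b a : V) : Prop := ∃ b' ∈ γ, b' ≠ b ∧ a ∈ N b'

open scoped Classical in
/-- a code of a shared vertex -/
noncomputable def shc (N : V → Finset V) (γ : Finset V) (b a : V) : V :=
  if h : Shd N γ b a then h.choose else b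

lemma shc_spec {b a : V} (h : Shd N γ b a) :
    shc N γ b a ∈ γ ∧ shc N γ b a ≠ b ∧ a ∈ N (shc N γ b a) := by
  unfold shc
  rw [dif_pos h]
  exact h.choose_spec

lemma shc_inj (hN : Bip N B D) (hγ : γ ⊆ B) {k : ℕ} (hk : 3 ≤ k) (hg : GC N γ k)
    {b a a' : V} (hb : b ∈ γ) (h1 : a ∈ N b) (h1' : a' ∈ N b) (h2 : Shd N γ b a)
    (h2' : Shd N γ b a') (h : shc N γ b a = shc N γ b a') : a = a' := by
  have e := shc_spec h2
  have e' := shc_spec h2'
  rw [← h] at e'
  exact common_unique hN hγ hk hg hb e.1 (Ne.symm e.2.1) h1 e.2.2 h1' e'.2.2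

/-- the first `b` of a path -/
def fstB (L : List (V × V)) (v : V) : V := (L.head?.map Prod.fst).getD v

lemma tl_inj {a₀ a₀' a a' b b' : V} {L L' : List (V × V)}
    (h : tl a₀ ((b, a) :: L) = tl a₀' ((b', a') :: L')) : b = b' ∧ a₀ = a₀' ∧ L = L' := by
  simp only [tl, List.cons.injEq] at h
  exact ⟨h.1, vts_inj h.2⟩

lemma tl_append (a₀ : V) {M : List (V × V)} (L : List (V × V)) (hM : M ≠ []) :
    ∃ l : List V, l.length = 2 * M.length - 1 ∧ tl a₀ (M ++ L) = l ++ vts a₀ L := by
  obtain ⟨⟨b, a⟩, M, rfl⟩ := List.exists_cons_of_ne_nil hM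
  refine ⟨b :: M.flatMap (fun p => [p.2, p.1]), ?_, ?_⟩
  · simp only [List.length_cons]
    have : ∀ M : List (V × V), (M.flatMap (fun p => [p.2, p.1])).length = 2 * M.length := by
      intro M
      induction M with
      | nil => rfl
      | cons p M ih => simp only [List.flatMap_cons, List.length_append, ih]; simp; ring
    rw [this]; omega
  · simp only [List.cons_append, tl, vts_eq, List.flatMap_append, List.append_assoc]

/-- the tail of a path which ends in `(b₁, a₁)`, `a₀` -/
lemma tl_last (a₀ b₁ a₁ : V) {M : List (V × V)} (hM : M ≠ []) :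
    ∃ h1 : 2 * M.length < (tl a₀ (M ++ [(b₁, a₁)])).length,
    ∃ h2 : 2 * M.length + 1 < (tl a₀ (M ++ [(b₁, a₁)])).length,
      (tl a₀ (M ++ [(b₁, a₁)]))[2 * M.length] = b₁ ∧
      (tl a₀ (M ++ [(b₁, a₁)]))[2 * M.length + 1] = a₀ := by
  have hl := tl_length a₀ (L := M ++ [(b₁, a₁)]) (by simp)
  have hpos := List.length_pos_of_ne_nil hM
  simp only [List.length_append, List.length_cons, List.length_nil] at hl
  refine ⟨by omega, by omega, ?_⟩
  obtain ⟨l, e1, e2⟩ := tl_append a₀ [(b₁, a₁)] hM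
  constructor
  · simp only [e2]
    rw [List.getElem_append_right (by omega)]
    have : 2 * M.length - l.length = 1 := by omega
    simp only [this, vts]
    rfl
  · simp only [e2]
    rw [List.getElem_append_right (by omega)]
    have : 2 * M.length + 1 - l.length = 2 := by omega
    simp only [this, vts]
    rfl

/-- marked paths: the number does not depend on `D` -/
theorem marked_count (hN : Bip N B D) (hγ : γ ⊆ B) {k : ℕ} (hk : 3 ≤ k) (hg : GC N γ k) {a₀ : V}
    (ha₀ : a₀ ∉ B) {J : ℕ} (hJ : 2 ≤ J) (hJk : 2 * J < k + 3) (S : Finset (List (V × V)))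
    (hS : ∀ L ∈ S, Pth N γ a₀ L ∧ L.length = J ∧ Shd N γ (fstB L a₀) (lastA a₀ L)) :
    S.card ≤ γ.card ^ 3 := by
  classical
  have hne : ∀ L ∈ S, L ≠ [] := by
    intro L hL h
    have := (hS L hL).2.1
    rw [h] at this
    simp at this
    omega
  have hlen : ∀ L ∈ S, (tl a₀ L).length = 2 * J := fun L hL => by
    rw [tl_length a₀ (hne L hL), (hS L hL).2.1]
  let code : List (V × V) → V × V × V := fun L =>
    ((tl a₀ L).getD 0 a₀, (tl a₀ L).getD 2 a₀, shc N γ (fstB L a₀) (lastA a₀ L))
  have hcard : (γ ×ˢ γ ×ˢ γ).card = γ.card ^ 3 := by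
    rw [card_product, card_product]; ring
  rw [← hcard]
  refine card_le_card_of_injOn code ?_ ?_
  · intro L hL
    have hL' : L ∈ S := hL
    obtain ⟨h1, h2, h3⟩ := hS L hL'
    have hl := hlen L hL'
    rw [mem_coe, mem_product, mem_product]
    refine ⟨?_, ?_, (shc_spec h3).1⟩
    · have h0 : 2 * 0 < (tl a₀ L).length := by omega
      show (tl a₀ L).getD (2 * 0) a₀ ∈ γ
      rw [getD_lt _ _ h0]
      exact tl_even h1 0 h0
    · have h0 : 2 * 1 < (tl a₀ L).length := by omega
      show (tl a₀ L).getD (2 * 1) a₀ ∈ γ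
      rw [getD_lt _ _ h0]
      exact tl_even h1 1 h0
  · intro L hL L' hL' he
    have hLS : L ∈ S := hL
    have hLS' : L' ∈ S := hL'
    obtain ⟨h1, h2, h3⟩ := hS L hLS
    obtain ⟨h1', h2', h3'⟩ := hS L' hLS'
    have hl := hlen L hLS
    have hl' := hlen L' hLS'
    have hn := hne L hLS
    have hn' := hne L' hLS'
    simp only [code, Prod.mk.injEq] at he
    obtain ⟨e0, e2, e3⟩ := he
    rw [getD_lt _ _ (by omega), getD_lt _ _ (by omega)] at e0 e2
    have hJk' : J ≤ k := by omega
    have c1 := tl_chain hN hγ hn h1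
    have c1' := tl_chain hN hγ hn' h1'
    have d1 := tl_nodup hN hγ (by omega) hg ha₀ hn h1 (by omega)
    have d1' := tl_nodup hN hγ (by omega) hg ha₀ hn' h1' (by omega)
    -- the last vertex
    have hlast : ∀ (L : List (V × V)) (hn : L ≠ []) (hL : L.length = J)
        (hl : 2 * J - 1 < (tl a₀ L).length), (tl a₀ L)[2 * J - 1] = a₀ := by
      intro L hn hL hl
      obtain ⟨⟨b, a⟩, L, rfl⟩ := List.exists_cons_of_ne_nil hn
      have e : (tl a₀ ((b, a) :: L)) = (b :: L.flatMap (fun p => [p.2, p.1])) ++ [a₀] := by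
        simp [tl, vts_eq]
      have e2 : (b :: L.flatMap (fun p => [p.2, p.1])).length = 2 * J - 1 := by
        have h3 := tl_length a₀ (L := (b, a) :: L) (by simp)
        rw [e, hL, List.length_append] at h3
        simp only [List.length_singleton] at h3
        omega
      simp only [e]
      rw [List.getElem_append_right (by omega)]
      simp
    have e4 := hlast L hn h2 (by omega)
    have e4' := hlast L' hn' h2' (by omega)
    have key : tl a₀ L = tl a₀ L' := by
      refine List.ext_getElem (by rw [hl, hl']) ?_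
      intro t ht ht'
      by_cases h02 : t ≤ 2
      · exact interval_unique hg c1 c1' d1 d1' (i := 0) (j := 2) (by omega) (by omega) (by omega)
          e0 e2 (by omega) t (by omega) h02
      · exact interval_unique hg c1 c1' d1 d1' (i := 2) (j := 2 * J - 1) (by omega) (by omega)
          (by omega) e2 (e4.trans e4'.symm) (by omega) t (by omega) (by omega)
    obtain ⟨⟨b, a⟩, M, rfl⟩ := List.exists_cons_of_ne_nil hn
    obtain ⟨⟨b', a'⟩, M', rfl⟩ := List.exists_cons_of_ne_nil hn'
    obtain ⟨k1, k2, k3⟩ := tl_inj key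
    subst k1
    subst k3
    have h5 : a = a' := by
      refine shc_inj hN hγ hk hg (b := b) h1.2.1 h1.2.2.2.2.1 h1'.2.2.2.2.1 h3 h3' ?_
      exact e3
    rw [h5]

/-- paths with a given first `b`: the number does not depend on `D` -/
theorem first_count (hN : Bip N B D) (hγ : γ ⊆ B) {k : ℕ} (hk : 3 ≤ k) (hg : GC N γ k) {b₁ : V}
    (hb₁ : b₁ ∈ γ) (S : Finset (V × List (V × V)))
    (hS : ∀ p ∈ S, Pth N γ p.1 p.2 ∧ p.2.length = k ∧ Shd N γ (fstB p.2 p.1) (lastA p.1 p.2) ∧
      p.1 ∈ N b₁ ∧ Shd N γ b₁ p.1 ∧ ∃ (M : List (V × V)) (a₁ : V), p.2 = M ++ [(b₁, a₁)]) :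
    S.card ≤ γ.card ^ 5 := by
  classical
  have hne : ∀ p ∈ S, p.2 ≠ [] := by
    intro p hp h
    have := (hS p hp).2.1
    rw [h] at this
    simp at this
    omega
  have ha₀ : ∀ p ∈ S, p.1 ∉ B := fun p hp => hN.out b₁ (hγ hb₁) _ (hS p hp).2.2.2.1
  have hlen : ∀ p ∈ S, (tl p.1 p.2).length = 2 * k := fun p hp => by
    rw [tl_length p.1 (hne p hp), (hS p hp).2.1]
  let m := (k - 1) / 2
  have hm : m = (k - 1) / 2 := rfl
  let code : V × List (V × V) → V × V × V × V × V := fun p =>
    (shc N γ b₁ p.1, (tl p.1 p.2).getD (2 * 0) b₁, (tl p.1 p.2).getD (2 * m) b₁,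
      (tl p.1 p.2).getD (2 * (2 * m)) b₁, shc N γ (fstB p.2 p.1) (lastA p.1 p.2))
  have hcard : (γ ×ˢ γ ×ˢ γ ×ˢ γ ×ˢ γ).card = γ.card ^ 5 := by
    rw [card_product, card_product, card_product, card_product]; ring
  rw [← hcard]
  refine card_le_card_of_injOn code ?_ ?_
  · intro p hp
    have hp' : p ∈ S := hp
    obtain ⟨h1, h2, h3, h4, h5, h6⟩ := hS p hp'
    have hl := hlen p hp'
    have hget : ∀ i, 2 * i < 2 * k → (tl p.1 p.2).getD (2 * i) b₁ ∈ γ := by
      intro i hi
      have h0 : 2 * i < (tl p.1 p.2).length := by omega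
      rw [getD_lt _ _ h0]
      exact tl_even h1 i h0
    rw [mem_coe, mem_product, mem_product, mem_product, mem_product]
    exact ⟨(shc_spec h5).1, hget 0 (by omega), hget m (by omega), hget (2 * m) (by omega),
      (shc_spec h3).1⟩
  · rintro ⟨a₀, L⟩ hp ⟨a₀', L'⟩ hp' he
    have hpS : (a₀, L) ∈ S := hp
    have hpS' : (a₀', L') ∈ S := hp'
    have hl := hlen _ hpS
    have hl' := hlen _ hpS'
    have hn := hne _ hpS
    have hn' := hne _ hpS'
    have hB := ha₀ _ hpS
    have hB' := ha₀ _ hpS'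
    obtain ⟨h1, h2, h3, h4, h5, M, a₁, h6⟩ := hS _ hpS
    obtain ⟨h1', h2', h3', h4', h5', M', a₁', h6'⟩ := hS _ hpS'
    simp only at hl hl' hn hn' hB hB' h1 h2 h3 h4 h5 h6 h1' h2' h3' h4' h5' h6'
    simp only [code, Prod.mk.injEq] at he
    obtain ⟨e1, e2, e3, e4, e5⟩ := he
    have ea : a₀ = a₀' := shc_inj hN hγ hk hg hb₁ h4 h4' h5 h5' e1
    subst ea
    rw [getD_lt _ _ (by omega), getD_lt _ _ (by omega)] at e2 e3 e4
    have c1 := tl_chain hN hγ hn h1
    have c1' := tl_chain hN hγ hn' h1'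
    have d1 := tl_nodup hN hγ (by omega) hg hB hn h1 (by omega)
    have d1' := tl_nodup hN hγ (by omega) hg hB hn' h1' (by omega)
    have hMl : M.length = k - 1 := by
      have := congrArg List.length h6
      simp only [List.length_append, List.length_cons, List.length_nil] at this
      omega
    have hMl' : M'.length = k - 1 := by
      have := congrArg List.length h6'
      simp only [List.length_append, List.length_cons, List.length_nil] at this
      omega
    have hM : M ≠ [] := by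
      intro h; rw [h] at hMl; simp at hMl; omega
    have hM' : M' ≠ [] := by
      intro h; rw [h] at hMl'; simp at hMl'; omega
    have f1 : ∀ (h : 2 * (k - 1) < (tl a₀ L).length), (tl a₀ L)[2 * (k - 1)] = b₁ := by
      intro h
      obtain ⟨g1, g2, g3, g4⟩ := tl_last a₀ b₁ a₁ hM
      simp only [← h6, hMl] at g3
      exact g3
    have f1' : ∀ (h : 2 * (k - 1) < (tl a₀ L').length), (tl a₀ L')[2 * (k - 1)] = b₁ := by
      intro h
      obtain ⟨g1, g2, g3, g4⟩ := tl_last a₀ b₁ a₁' hM'
      simp only [← h6', hMl'] at g3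
      exact g3
    have f2 : ∀ (h : 2 * (k - 1) + 1 < (tl a₀ L).length), (tl a₀ L)[2 * (k - 1) + 1] = a₀ := by
      intro h
      obtain ⟨g1, g2, g3, g4⟩ := tl_last a₀ b₁ a₁ hM
      simp only [← h6, hMl] at g4
      exact g4
    have f2' : ∀ (h : 2 * (k - 1) + 1 < (tl a₀ L').length), (tl a₀ L')[2 * (k - 1) + 1] = a₀ := by
      intro h
      obtain ⟨g1, g2, g3, g4⟩ := tl_last a₀ b₁ a₁' hM'
      simp only [← h6', hMl'] at g4
      exact g4
    have g1 := f1 (by omega)
    have g1' := f1' (by omega)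
    have g2 := f2 (by omega)
    have g2' := f2' (by omega)
    have key : tl a₀ L = tl a₀ L' := by
      refine List.ext_getElem (by rw [hl, hl']) ?_
      intro t ht ht'
      by_cases t1 : t ≤ 2 * m
      · exact interval_unique hg c1 c1' d1 d1' (i := 2 * 0) (j := 2 * m) (by omega) (by omega)
          (by omega) e2 e3 (by omega) t (by omega) t1
      by_cases t2 : t ≤ 2 * (2 * m)
      · exact interval_unique hg c1 c1' d1 d1' (i := 2 * m) (j := 2 * (2 * m)) (by omega)
          (by omega) (by omega) e3 e4 (by omega) t (by omega) t2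
      by_cases t3 : t ≤ 2 * (k - 1)
      · exact interval_unique hg c1 c1' d1 d1' (i := 2 * (2 * m)) (j := 2 * (k - 1)) (by omega)
          (by omega) (by omega) e4 (g1.trans g1'.symm) (by omega) t (by omega) t3
      · have : t = 2 * (k - 1) + 1 := by omega
        subst this
        exact g2.trans g2'.symm
    obtain ⟨⟨b, a⟩, K, rfl⟩ := List.exists_cons_of_ne_nil hn
    obtain ⟨⟨b', a'⟩, K', rfl⟩ := List.exists_cons_of_ne_nil hn'
    obtain ⟨k1, k2, k3⟩ := tl_inj key
    subst k1
    subst k3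
    have h7 : a = a' := by
      refine shc_inj hN hγ hk hg (b := b) h1.2.1 h1.2.2.2.2.1 h1'.2.2.2.2.1 h3 h3' ?_
      exact e5
    rw [h7]

end Vale.Agent.P050.Dense.H625c
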