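import Vale.Agent.P050.R2.H625.Cnt3
import Vale.Agent.P050.R2.H559.Zero

set_option linter.all false

/-!
# P050 dense targets, phase 2: marked polymers, reduction to one path
-/

open MeasureTheory Finset

namespace Vale.Agent.P050.Dense

open Vale.Agent.P050 Vale.Agent.P050.Dense.H625c

variable {V : Type*} [Fintype V] [DecidableEq V] {Ω : Type*} [MeasurableSpace Ω]
variable (μ : Measure Ω) [IsProbabilityMeasure μ] {U : Sym2 Ω → ℝ} {κ η : ℝ}

/-- marked polymers: from the step identity and the bound of one path with `J` double steps -/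
theorem phig_le_of {N : V → Finset V} {B γ : Finset V} {D : ℕ} (hN : Bip N B D)
    (hU : Ker μ U κ η) (hγ : γ ⊆ B) {o : V → ℕ} {k : ℕ} (hk : 3 ≤ k) (hg : GC N γ k)
    {g : Ω → ℝ} (hgm : BM g) {a : V} (ha : a ∉ B) {J : ℕ} (hJ : 2 ≤ J) (hJk : 2 * J < k + 3)
    {K : ℝ} (hK : 0 ≤ K)
    (hstep : ∀ L, Pth N γ a L → L.length < J →
      ∫ z, g (z a) * JJ μ U N o true γ a L z ∂(piM V μ) =
        ∑ b ∈ (γ \ Bs L).filter (fun b => lastA a L ∈ N b), ∑ a' ∈ (N b).erase (lastA a L),
          ∫ z, g (z a) * JJ μ U N o true γ a ((b, a') :: L) z ∂(piM V μ))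
    (hend : ∀ L, Pth N γ a L → L.length = J →
      |∫ z, g (z a) * JJ μ U N o true γ a L z ∂(piM V μ)| ≤ K) :
    |phig μ U N g a γ| ≤ (γ.card : ℝ) ^ 3 * K := by
  classical
  let F : List (V × V) → ℝ := fun L => ∫ z, g (z a) * JJ μ U N o true γ a L z ∂(piM V μ)
  have hsum : F [] = ∑ L' ∈ Ext N γ a J [], F L' :=
    sum_ext F 0 J (fun L hL _ h2 => hstep L hL h2) J [] trivial (by simp) (by simp)
  have h0 : phig μ U N g a γ = F [] := phig_eq_JJ μ N o g a γ
  let good : List (V × V) → Prop := fun L => Shd N γ (fstB L a) (lastA a L)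
  have hP : ∀ L' ∈ Ext N γ a J [], Pth N γ a L' := fun L' hL' =>
    ext_pth J (L := []) trivial hL'
  have hlen : ∀ L' ∈ Ext N γ a J [], L'.length = J := fun L' hL' => by
    rw [ext_len hL']; simp
  have hb : ∀ L' ∈ Ext N γ a J [], |F L'| ≤ if good L' then K else 0 := by
    intro L' hL'
    split_ifs with hgd
    · exact hend L' (hP L' hL') (hlen L' hL')
    · have hne : L' ≠ [] := by
        rintro rfl
        have := hlen [] hL'
        simp at this
        omega
      have h1 : F L' = 0 := JJ_zero_last μ hN hU hγ hgm ha hne (hP L' hL') hgd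
      rw [h1, abs_zero]
  have hc : ((Ext N γ a J []).filter good).card ≤ γ.card ^ 3 := by
    refine marked_count hN hγ hk hg ha hJ hJk _ ?_
    intro L hL
    obtain ⟨h1, h2⟩ := mem_filter.1 hL
    exact ⟨hP L h1, hlen L h1, h2⟩
  calc |phig μ U N g a γ| = |∑ L' ∈ Ext N γ a J [], F L'| := by rw [h0, hsum]
    _ ≤ ∑ L' ∈ Ext N γ a J [], |F L'| := abs_sum_le_sum_abs _ _
    _ ≤ ∑ L' ∈ Ext N γ a J [], (if good L' then K else 0) := sum_le_sum hb
    _ = ((Ext N γ a J []).filter good).card * K := by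
        rw [← sum_filter, sum_const, nsmul_eq_mul]
    _ ≤ (γ.card : ℝ) ^ 3 * K := by
        refine mul_le_mul_of_nonneg_right ?_ hK
        exact_mod_cast hc

end Vale.Agent.P050.Dense
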