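import Vale.Agent.P050.R2.H625.IndL
import Vale.Agent.P050.R2.H261.Close

set_option linter.all false

/-!
# P050 dense targets, phase 2: one double step of the path expansion (relaxed form)
-/

open MeasureTheory Finset

namespace Vale.Agent.P050.Dense.H625e

open Vale.Agent.P050 Vale.Agent.P050.Dense Vale.Agent.P050.Dense.H625

section comb

variable {V : Type*} [Fintype V] [DecidableEq V]

lemma Bs_cons (b a : V) (L : List (V × V)) : Bs ((b, a) :: L) = insert b (Bs L) := by simp [Bs]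

lemma Bs_append (L L' : List (V × V)) : Bs (L ++ L') = Bs L ∪ Bs L' := by
  simp [Bs]

lemma Bs_sub {N : V → Finset V} {γ : Finset V} {a₀ : V} :
    ∀ {L : List (V × V)}, Pth N γ a₀ L → Bs L ⊆ γ
  | [], _ => by simp [Bs]
  | (b, a) :: L, hP => by
    rw [Bs_cons]
    exact insert_subset hP.2.1 (Bs_sub hP.1)

lemma pth_append {N : V → Finset V} {γ : Finset V} {a₀ : V} :
    ∀ {L L' : List (V × V)}, Pth N γ a₀ (L ++ L') → Pth N γ a₀ L'
  | [], _, h => h
  | (b, a) :: L, L', h => pth_append (L := L) h.1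

lemma pth_split {N : V → Finset V} {γ : Finset V} {a₀ : V} {b a : V} :
    ∀ {L L' : List (V × V)}, Pth N γ a₀ (L ++ (b, a) :: L') → b ∉ Bs L ∧ a ∈ N b ∧ b ∈ γ
  | [], L', h => by
    refine ⟨by simp [Bs], h.2.2.2.2.1, h.2.1⟩
  | (b', a') :: L, L', h => by
    have h1 := pth_split (L := L) (L' := L') h.1
    refine ⟨?_, h1.2⟩
    rw [Bs_cons, mem_insert, not_or]
    refine ⟨?_, h1.1⟩
    rintro rfl
    have h2 := h.2.2.1
    apply h2
    rw [show (List.append L ((b, a) :: L') : List (V × V)) = L ++ (b, a) :: L' from rfl,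
      Bs_append, Bs_cons]
    simp

lemma mem_Bs {b : V} {L : List (V × V)} (h : b ∈ Bs L) :
    ∃ (a : V) (L' L'' : List (V × V)), L = L' ++ (b, a) :: L'' := by
  unfold Bs at h
  rw [List.mem_toFinset, List.mem_map] at h
  obtain ⟨⟨b', a⟩, h1, h2⟩ := h
  simp only at h2
  subst h2
  obtain ⟨L', L'', h3⟩ := List.append_of_mem h1
  exact ⟨a, L', L'', h3⟩

lemma mem_rem {N : V → Finset V} {o : V → ℕ} {fl : Bool} {a₀ b' x : V} :
    ∀ {L : List (V × V)}, x ∈ rem N o fl a₀ b' L →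
      ∃ (L' : List (V × V)) (p : V × V) (L'' : List (V × V)), L = L' ++ p :: L'' ∧
        x = lastA a₀ L'' ∧ x ∈ N b' ∧ (L'' ≠ [] ∨ fl = true)
  | [], h => by simp [rem] at h
  | (b, a) :: L, h => by
    unfold rem at h
    rw [mem_union] at h
    rcases h with h | h
    · obtain ⟨L', p, L'', h1, h2⟩ := mem_rem h
      exact ⟨(b, a) :: L', p, L'', by rw [h1]; rfl, h2⟩
    · split_ifs at h with hc
      · rw [mem_singleton] at h
        subst h
        exact ⟨[], (b, a), L, rfl, rfl, hc.2.1, hc.1⟩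
      · simp at h

/-- consequences of the girth condition for a path with less than `k` double steps -/
lemma end_new {N : V → Finset V} {B γ : Finset V} {D : ℕ} (hN : Bip N B D) (hγ : γ ⊆ B)
    {k : ℕ} (hk : 2 ≤ k) (hg : GC N γ k) {a₀ b₁ a₁ : V} {L : List (V × V)}
    (hP : Pth N γ a₀ ((b₁, a₁) :: L)) (hl : L.length + 1 + 1 ≤ k) :
    a₁ ≠ a₀ ∧ ∀ b ∈ Bs L, a₁ ∉ N b := by
  refine ⟨?_, ?_⟩
  · intro h
    have h1 := pth_close hN hγ hk hg (a₀ := a₀) (L₁ := (b₁, a₁) :: L) (L₂ := [])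
      (by rw [List.append_nil]; exact hP) (by simp) (by rw [List.append_nil]; exact h)
    simp only [List.length_cons] at h1
    omega
  · intro b hb hab
    obtain ⟨a, L', L'', rfl⟩ := mem_Bs hb
    have hP' : Pth N γ a₀ (((b₁, a₁) :: L') ++ (b, a) :: L'') := hP
    have h2 := pth_split hP'
    have h1 := pth_close' hN hγ hk hg (a₀ := a₀) (L₁ := (b₁, a₁) :: L') (L₂ := (b, a) :: L'')
      hP' (by simp) h2.2.2 h2.1 hab h2.2.1
    simp only [List.length_cons, List.length_append] at h1 hl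
    omega

lemma rem_empty {N : V → Finset V} {B γ : Finset V} {D : ℕ} (hN : Bip N B D) (hγ : γ ⊆ B)
    {k : ℕ} (hk : 2 ≤ k) (hg : GC N γ k) {o : V → ℕ} {fl : Bool} {a₀ b : V} {L : List (V × V)}
    (hP : Pth N γ a₀ L) (hl : L.length + 1 ≤ k) (hfl' : fl = true → L.length + 2 ≤ k)
    (hb : b ∈ γ) (hbL : b ∉ Bs L) (hab : lastA a₀ L ∈ N b) : rem N o fl a₀ b L = ∅ := by
  rw [eq_empty_iff_forall_notMem]
  intro x hx
  obtain ⟨L', p, L'', rfl, h2, h3, h4⟩ := mem_rem hx
  have e : L' ++ p :: L'' = (L' ++ [p]) ++ L'' := by simp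
  rw [e] at hP hab hbL
  have h1 := pth_close' hN hγ hk hg (a₀ := a₀) (L₁ := L' ++ [p]) (L₂ := L'')
      hP (by simp) hb (by
        rw [Bs_append, mem_union, not_or] at hbL
        exact hbL.1) hab (h2 ▸ h3)
  simp only [List.length_append, List.length_cons, List.length_nil] at h1 hl hfl'
  rcases h4 with h4 | h4
  · have : 0 < L''.length := List.length_pos_of_ne_nil h4
    omega
  · have := hfl' h4
    omega

end comb

section

variable {V : Type*} [Fintype V] [DecidableEq V] {Ω : Type*} [MeasurableSpace Ω]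
variable (μ : Measure Ω) [IsProbabilityMeasure μ] {U : Sym2 Ω → ℝ} {κ η : ℝ}

/-- the part of `Phi` which contains the edge to `a'` -/
lemma Phi_split (hU : Ker μ U κ η) {o : V → ℕ} (ho : Function.Injective o) (N : V → Finset V)
    {b a' : V} (ha' : a' ∈ N b) (z : V → Ω) :
    Phi μ U N ∅ b z = Phi μ U N {a'} b z +
      ∑ a ∈ (N b).erase a', ∫ y, U s(z a', y) * U s(z a, y) *
        ∏ c ∈ ((N b).erase a').filter (fun c => o c < o a), (1 + U s(z c, y)) ∂μ := by
  unfold Phi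
  rw [sdiff_empty, sdiff_singleton_eq_erase]
  have h1 : ∀ y, (∏ a ∈ N b, (1 + U s(z a, y))) - 1 =
      ((∏ a ∈ (N b).erase a', (1 + U s(z a, y))) - 1) + (U s(z a', y) +
      ∑ a ∈ (N b).erase a', U s(z a', y) * U s(z a, y) *
        ∏ c ∈ ((N b).erase a').filter (fun c => o c < o a), (1 + U s(z c, y))) := by
    intro y
    rw [← mul_prod_erase _ _ ha']
    have h2 := prod_one_add_tel o ho ((N b).erase a') (fun a => U s(z a, y))
    have h3 : ∑ a ∈ (N b).erase a', U s(z a', y) * U s(z a, y) *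
        ∏ c ∈ ((N b).erase a').filter (fun c => o c < o a), (1 + U s(z c, y)) =
        U s(z a', y) * ∑ a ∈ (N b).erase a', U s(z a, y) *
        ∏ c ∈ ((N b).erase a').filter (fun c => o c < o a), (1 + U s(z c, y)) := by
      rw [mul_sum]
      refine sum_congr rfl fun a _ => by ring
    rw [h3, h2]
    ring
  have hbm : ∀ a ∈ (N b).erase a', BM (fun y => U s(z a', y) * U s(z a, y) *
        ∏ c ∈ ((N b).erase a').filter (fun c => o c < o a), (1 + U s(z c, y))) := fun a _ =>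
    ((bm_y hU.good z a').mul (bm_y hU.good z a)).mul (bm_prod_y hU.good _ z)
  simp only [h1]
  rw [integral_add (((bm_prod_y hU.good _ z).sub (BM.const 1)).integrable _)
    (((bm_y hU.good z a').add (BM.finsum _ hbm)).integrable _),
    integral_add ((bm_y hU.good z a').integrable _) ((BM.finsum _ hbm).integrable _),
    integral_finset_sum _ fun a ha => (hbm a ha).integrable _]
  have h0 : ∫ y, U s(z a', y) ∂μ = 0 := hU.zero (z a')
  rw [h0, zero_add]

end

end Vale.Agent.P050.Dense.H625e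

namespace Vale.Agent.P050.Dense

open Vale.Agent.P050 Vale.Agent.P050.Dense.H625 Vale.Agent.P050.Dense.H625e

section

variable {V : Type*} [Fintype V] [DecidableEq V] {Ω : Type*} [MeasurableSpace Ω]
variable (μ : Measure Ω) [IsProbabilityMeasure μ] {U : Sym2 Ω → ℝ} {κ η : ℝ}

/-- one double step, marked vertex allowed up to `k - 2` previous steps -/
theorem expand_step' {N : V → Finset V} {B γ : Finset V} {D : ℕ} (hN : Bip N B D)
    (hU : Ker μ U κ η) (hγ : γ ⊆ B) {o : V → ℕ} (ho : Function.Injective o)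
    {k : ℕ} (hk : 2 ≤ k) (hg : GC N γ k) {fl : Bool} {g : Ω → ℝ} (hgm : BM g)
    (hg0 : fl = true → ∫ s, g s ∂μ = 0) {a₀ : V} {L : List (V × V)} (ha₀ : a₀ ∉ B)
    (hP : Pth N γ a₀ L) (hl : L.length + 1 ≤ k) (hfl : fl = true ∨ L ≠ [])
    (hfl' : fl = true → L.length + 2 ≤ k) :
    ∫ z, g (z a₀) * JJ μ U N o fl γ a₀ L z ∂(piM V μ) =
      ∑ b ∈ (γ \ Bs L).filter (fun b => lastA a₀ L ∈ N b), ∑ a ∈ (N b).erase (lastA a₀ L),
        ∫ z, g (z a₀) * JJ μ U N o fl γ a₀ ((b, a) :: L) z ∂(piM V μ) := by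
  classical
  set a' := lastA a₀ L with ha'
  set T := γ \ Bs L with hT
  set S := T.filter (fun b => a' ∈ N b) with hS
  have hTγ : ∀ b ∈ T, b ∈ γ := fun b hb => (mem_sdiff.1 hb).1
  have hST : ∀ b ∈ S, b ∈ T := fun b hb => (mem_filter.1 hb).1
  have hSN : ∀ b ∈ S, a' ∈ N b := fun b hb => (mem_filter.1 hb).2
  have hrem : ∀ b ∈ S, rem N o fl a₀ b L = ∅ := fun b hb =>
    rem_empty hN hγ hk hg hP hl hfl' (hTγ b (hST b hb)) (mem_sdiff.1 (hST b hb)).2 (hSN b hb)
  have ha'B : a' ∉ B := by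
    by_cases hL : L = []
    · rw [ha', hL]; exact ha₀
    · obtain ⟨b, hb, hb2⟩ := lastA_mem hP hL
      exact hN.out b (hγ (Bs_sub hP hb)) a' hb2
  -- the functions
  set c : (V → Ω) → ℝ := fun z => g (z a₀) * core U N o a₀ L z with hc
  set Fp : V → (V → Ω) → ℝ := fun b => Phi μ U N (rem N o fl a₀ b L) b with hFp
  set Fm : V → (V → Ω) → ℝ := fun b => Phi μ U N {a'} b with hFm
  set h : V → V → (V → Ω) × Ω → ℝ := fun b a q => U s(q.1 a', q.2) * U s(q.1 a, q.2) *
        ∏ c ∈ ((N b).erase a').filter (fun c => o c < o a), (1 + U s(q.1 c, q.2)) with hh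
  set d : V → (V → Ω) → ℝ := fun b z => ∑ a ∈ (N b).erase a', ∫ y, h b a (z, y) ∂μ with hd
  have hcbm : BM c := (hgm.comp (measurable_pi_apply a₀)).mul (bm_core hU.good N o a₀ L)
  have hFpbm : ∀ b, BM (Fp b) := fun b => bm_Phi μ hU.good N _ b
  have hFmbm : ∀ b, BM (Fm b) := fun b => bm_Phi μ hU.good N _ b
  have hhbm : ∀ b a, BM (h b a) := fun b a =>
    ((bm_zy hU.good a').mul (bm_zy hU.good a)).mul (bm_prod_zy hU.good _)
  have hibm : ∀ b a, BM (fun z => ∫ y, h b a (z, y) ∂μ) := fun b a =>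
    (hhbm b a).integral_right μ
  have hdbm : ∀ b, BM (d b) := fun b => BM.finsum _ fun a _ => hibm b a
  have hsplit : ∀ b ∈ S, ∀ z, Fp b z = Fm b z + d b z := by
    intro b hb z
    simp only [hFp, hFm, hd, hrem b hb, hh]
    exact Phi_split μ hU ho N (hSN b hb) z
  -- the remaining factor
  set R : V → (V → Ω) → ℝ := fun b z => (∏ b' ∈ S.filter (fun j => o j < o b), Fp b' z) *
    (∏ b' ∈ S.filter (fun j => o b < o j), Fm b' z) *
    ∏ b' ∈ T.filter (fun b => ¬ a' ∈ N b), Fp b' z with hR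
  have hRbm : ∀ b, BM (R b) := fun b =>
    ((BM.finprod _ fun b' _ => hFpbm b').mul (BM.finprod _ fun b' _ => hFmbm b')).mul
      (BM.finprod _ fun b' _ => hFpbm b')
  set Q : (V → Ω) → ℝ := fun z => (∏ b' ∈ S, Fm b' z) *
    ∏ b' ∈ T.filter (fun b => ¬ a' ∈ N b), Fp b' z with hQ
  have hQbm : BM Q := (BM.finprod _ fun b' _ => hFmbm b').mul (BM.finprod _ fun b' _ => hFpbm b')
  have hmain : ∀ z, g (z a₀) * JJ μ U N o fl γ a₀ L z = c z * Q z +
      ∑ b ∈ S, ∑ a ∈ (N b).erase a', (∫ y, h b a (z, y) ∂μ) * (c z * R b z) := by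
    intro z
    have h1 : ∏ b ∈ T, Fp b z = (∏ b ∈ S, Fp b z) *
        ∏ b' ∈ T.filter (fun b => ¬ a' ∈ N b), Fp b' z :=
      (prod_filter_mul_prod_filter_not T (fun b => a' ∈ N b) (fun b => Fp b z)).symm
    have h2 : ∏ b ∈ S, Fp b z = ∏ b ∈ S, Fm b z + ∑ b ∈ S, d b z *
        (∏ j ∈ S.filter (fun j => o j < o b), Fp j z) *
          ∏ j ∈ S.filter (fun j => o b < o j), Fm j z := by
      rw [prod_congr rfl fun b hb => hsplit b hb z, prod_tel o ho]
      congr 1
      refine sum_congr rfl fun b hb => ?_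
      congr 2
      refine prod_congr rfl fun j hj => ?_
      rw [hsplit j (mem_filter.1 hj).1 z]
    have h3 : JJ μ U N o fl γ a₀ L z = core U N o a₀ L z * ∏ b ∈ T, Fp b z := rfl
    have h4 : ∑ b ∈ S, ∑ a ∈ (N b).erase a', (∫ y, h b a (z, y) ∂μ) * (c z * R b z) =
        ∑ b ∈ S, d b z * (c z * R b z) := by
      refine sum_congr rfl fun b _ => ?_
      rw [hd, sum_mul]
    rw [h3, h1, h2, h4, hQ, hc]
    simp only
    rw [add_mul, sum_mul, mul_add, mul_add, mul_sum, mul_sum]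
    congr 1
    · ring
    · refine sum_congr rfl fun b _ => ?_
      simp only [hR]
      ring
  have hbm2 : ∀ b ∈ S, ∀ a ∈ (N b).erase a', BM (fun z => (∫ y, h b a (z, y) ∂μ) *
      (c z * R b z)) := fun b _ a _ => (hibm b a).mul (hcbm.mul (hRbm b))
  have hint : ∫ z, g (z a₀) * JJ μ U N o fl γ a₀ L z ∂(piM V μ) =
      ∫ z, c z * Q z ∂(piM V μ) + ∑ b ∈ S, ∑ a ∈ (N b).erase a',
        ∫ z, (∫ y, h b a (z, y) ∂μ) * (c z * R b z) ∂(piM V μ) := by
    simp only [hmain]
    rw [integral_add ((hcbm.mul hQbm).integrable _)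
      ((BM.finsum _ fun b hb => BM.finsum _ fun a ha => hbm2 b hb a ha).integrable _)]
    congr 1
    rw [integral_finset_sum _ fun b hb =>
      (BM.finsum _ fun a ha => hbm2 b hb a ha).integrable _]
    refine sum_congr rfl fun b hb => ?_
    rw [integral_finset_sum _ fun a ha => (hbm2 b hb a ha).integrable _]
  -- the first term vanishes
  have hzero : ∫ z, c z * Q z ∂(piM V μ) = 0 := by
    have hQi : Ind a' Q := by
      refine Ind.mul' (Ind.prod' _ fun b hb => ?_) (Ind.prod' _ fun b hb => ?_)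
      · exact ind_Phi μ (by simp)
      · refine ind_Phi μ fun hx => ?_
        exact (mem_filter.1 hb).2 (mem_sdiff.1 hx).1
    refine integral_zero_of μ a' hcbm hQbm hQi fun z => ?_
    by_cases hL : L = []
    · have hfl1 : fl = true := by
        rcases hfl with h | h
        · exact h
        · exact absurd hL h
      have e : a' = a₀ := by rw [ha', hL]; rfl
      simp only [hc, hL, core, mul_one, e, Function.update_self]
      exact hg0 hfl1
    · obtain ⟨⟨b₁, a₁⟩, L₁, hL₁⟩ := List.exists_cons_of_ne_nil hL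
      have e : a' = a₁ := by rw [ha', hL₁]; rfl
      have hP' : Pth N γ a₀ ((b₁, a₁) :: L₁) := hL₁ ▸ hP
      have hl' : L₁.length + 1 + 1 ≤ k := by
        have : L.length = L₁.length + 1 := by rw [hL₁]; simp
        omega
      obtain ⟨hn1, hn2⟩ := end_new hN hγ hk hg hP' hl'
      have hb₁ : b₁ ∈ B := hγ hP'.2.1
      have ha₁B : a₁ ∉ B := e ▸ ha'B
      have hab : a₁ ≠ b₁ := fun h => ha₁B (h ▸ hb₁)
      have hla : a₁ ≠ lastA a₀ L₁ := hP'.2.2.2.2.2
      have i1 : Ind a₁ (core U N o a₀ L₁ : (V → Ω) → ℝ) :=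
        ind_core hn1 hP'.1 (fun h => ha₁B (hγ (Bs_sub hP'.1 h))) hn2
      have i2 : Ind a₁ (Rdec U N o b₁ (lastA a₀ L₁) a₁ : (V → Ω) → ℝ) :=
        ind_Rdec hab fun h => lt_irrefl _ (mem_filter.1 h).2
      have e2 : ∀ t, c (Function.update z a' t) =
          (g (z a₀) * (U s(z (lastA a₀ L₁), z b₁) * Rdec U N o b₁ (lastA a₀ L₁) a₁ z *
            core U N o a₀ L₁ z)) * U s(z b₁, t) := by
        intro t
        simp only [hc, hL₁, core, e]
        rw [i1 z t, i2 z t, Function.update_of_ne (Ne.symm hn1),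
          Function.update_of_ne (Ne.symm hla), Function.update_of_ne (Ne.symm hab),
          Function.update_self]
        ring
      simp only [e2]
      rw [integral_const_mul]
      have h0 : ∫ y, U s(z b₁, y) ∂μ = 0 := hU.zero (z b₁)
      rw [h0, mul_zero]
  rw [hint, hzero, zero_add]
  refine sum_congr rfl fun b hb => sum_congr rfl fun a ha => ?_
  have hbγ : b ∈ γ := hTγ b (hST b hb)
  have hbB : b ∈ B := hγ hbγ
  have hba' : b ≠ a' := fun h => ha'B (h ▸ hbB)
  have hbN : ∀ b' ∈ γ, b ∉ N b' := fun b' hb' h => hN.out b' (hγ hb') b h hbB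
  have haN : a ∈ N b := mem_of_mem_erase ha
  have hba₀ : b ≠ a₀ := by
    rintro rfl
    exact ha₀ hbB
  have hbaa : b ≠ a := by
    rintro rfl
    exact hbN b hbγ haN
  have hbL : b ∉ Bs L := (mem_sdiff.1 (hST b hb)).2
  have hi1 : Ind b (fun z => c z * R b z) := by
    refine Ind.mul' (Ind.mul' (ind_eval hba₀ g) ?_) ?_
    · exact ind_core hba₀ hP hbL fun b' hb' => hbN b' (Bs_sub hP hb')
    · refine Ind.mul' (Ind.mul' (Ind.prod' _ fun b' hb' => ?_) (Ind.prod' _ fun b' hb' => ?_))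
        (Ind.prod' _ fun b' hb' => ?_)
      · exact ind_Phi μ fun h => hbN b' (hTγ _ (hST _ (mem_filter.1 hb').1)) (mem_sdiff.1 h).1
      · exact ind_Phi μ fun h => hbN b' (hTγ _ (hST _ (mem_filter.1 hb').1)) (mem_sdiff.1 h).1
      · exact ind_Phi μ fun h => hbN b' (hTγ _ (mem_filter.1 hb').1) (mem_sdiff.1 h).1
  have hi2 : ∀ t, Ind b (fun z => h b a (z, t)) := by
    intro t
    refine Ind.mul' (Ind.mul' (ind_eval hba' fun s => U s(s, t))
      (ind_eval hbaa fun s => U s(s, t))) (Ind.prod' _ fun c hc => ?_)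
    refine ind_eval (v := b) (w := c) ?_ fun s => 1 + U s(s, t)
    rintro rfl
    exact hbN b hbγ (mem_of_mem_erase (mem_filter.1 hc).1)
  rw [integral_inner μ b (hhbm b a) (hcbm.mul (hRbm b)) hi1 hi2]
  congr 1
  ext z
  -- the integrands agree
  have e1 : JJ μ U N o fl γ a₀ ((b, a) :: L) z = (U s(z a', z b) * U s(z b, z a) *
      Rdec U N o b a' a z * core U N o a₀ L z) *
      ∏ b' ∈ γ \ Bs ((b, a) :: L), Phi μ U N (rem N o fl a₀ b' ((b, a) :: L)) b' z := rfl
  have e2 : γ \ Bs ((b, a) :: L) = T.erase b := by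
    rw [Bs_cons, hT]
    ext x
    simp only [mem_sdiff, mem_insert, mem_erase]
    tauto
  have e3 : ∏ b' ∈ T.erase b, Phi μ U N (rem N o fl a₀ b' ((b, a) :: L)) b' z = R b z := by
    have hr : ∀ b', rem N o fl a₀ b' ((b, a) :: L) = rem N o fl a₀ b' L ∪
      (if (L ≠ [] ∨ fl = true) ∧ a' ∈ N b' ∧ o b < o b' then {a'} else ∅) := fun _ => rfl
    have hflag : L ≠ [] ∨ fl = true := hfl.symm
    rw [← prod_filter_mul_prod_filter_not (T.erase b) (fun b => a' ∈ N b)]
    have s1 : (T.erase b).filter (fun b => ¬ a' ∈ N b) = T.filter (fun b => ¬ a' ∈ N b) := by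
      ext x
      simp only [mem_filter, mem_erase]
      constructor
      · rintro ⟨⟨_, h1⟩, h2⟩; exact ⟨h1, h2⟩
      · rintro ⟨h1, h2⟩
        exact ⟨⟨fun h => h2 (h ▸ hSN b hb), h1⟩, h2⟩
    have s2 : (T.erase b).filter (fun b => a' ∈ N b) = S.erase b := by
      ext x
      simp only [mem_filter, mem_erase, hS]
      tauto
    rw [s1, s2, ← prod_filter_mul_prod_filter_not (S.erase b) (fun j => o j < o b)]
    have s3 : (S.erase b).filter (fun j => o j < o b) = S.filter (fun j => o j < o b) := by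
      ext x
      simp only [mem_filter, mem_erase]
      constructor
      · rintro ⟨⟨_, h1⟩, h2⟩; exact ⟨h1, h2⟩
      · rintro ⟨h1, h2⟩
        exact ⟨⟨fun h => lt_irrefl _ (h ▸ h2), h1⟩, h2⟩
    have s4 : (S.erase b).filter (fun j => ¬ o j < o b) = S.filter (fun j => o b < o j) := by
      ext x
      simp only [mem_filter, mem_erase, not_lt]
      constructor
      · rintro ⟨⟨h0, h1⟩, h2⟩
        exact ⟨h1, lt_of_le_of_ne h2 fun h => h0 (ho h.symm)⟩
      · rintro ⟨h1, h2⟩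
        exact ⟨⟨fun h => lt_irrefl _ (h ▸ h2), h1⟩, h2.le⟩
    rw [s3, s4]
    have p1 : ∏ b' ∈ S.filter (fun j => o j < o b),
        Phi μ U N (rem N o fl a₀ b' ((b, a) :: L)) b' z =
        ∏ b' ∈ S.filter (fun j => o j < o b), Fp b' z := by
      refine prod_congr rfl fun b' hb' => ?_
      rw [hr, if_neg (fun h => absurd h.2.2 (not_lt.2 (mem_filter.1 hb').2.le)), union_empty]
    have p2 : ∏ b' ∈ S.filter (fun j => o b < o j),
        Phi μ U N (rem N o fl a₀ b' ((b, a) :: L)) b' z =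
        ∏ b' ∈ S.filter (fun j => o b < o j), Fm b' z := by
      refine prod_congr rfl fun b' hb' => ?_
      rw [hr, if_pos ⟨hflag, hSN b' (mem_filter.1 hb').1, (mem_filter.1 hb').2⟩,
        hrem b' (mem_filter.1 hb').1, empty_union]
    have p3 : ∏ b' ∈ T.filter (fun b => ¬ a' ∈ N b),
        Phi μ U N (rem N o fl a₀ b' ((b, a) :: L)) b' z =
        ∏ b' ∈ T.filter (fun b => ¬ a' ∈ N b), Fp b' z := by
      refine prod_congr rfl fun b' hb' => ?_
      rw [hr, if_neg (fun h => (mem_filter.1 hb').2 h.2.1), union_empty]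
    rw [p1, p2, p3]
  rw [e1, e2, e3]
  simp only [hh, hc]
  rw [show Rdec U N o b a' a z = ∏ c ∈ ((N b).erase a').filter (fun c => o c < o a),
    (1 + U s(z c, z b)) from rfl, Sym2.eq_swap (a := z b) (b := z a)]
  ring


end

end Vale.Agent.P050.Dense
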