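import Vale.Agent.P050.R2.H625.Cnt4
import Vale.Agent.P050.R2.H625.Exp2
import Vale.Agent.P050.R2.H612.JJ1r

set_option linter.all false

/-!
# P050 dense targets, phase 2: marked polymers, `k ≥ 3`
-/

open MeasureTheory Finset

namespace Vale.Agent.P050.Dense

open Vale.Agent.P050 Vale.Agent.P050.Dense.H625c

variable {V : Type*} [Fintype V] [DecidableEq V] {Ω : Type*} [MeasurableSpace Ω]
variable (μ : Measure Ω) [IsProbabilityMeasure μ] {U : Sym2 Ω → ℝ} {κ η : ℝ}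

/-- marked polymer bound without powers of `D`, for `k ≥ 3`, with `J = k / 2 + 1` double steps -/
theorem phig_bound3 {N : V → Finset V} {B γ : Finset V} {D : ℕ} (hN : Bip N B D)
    (hU : Ker μ U κ η) {σ : ℝ} (hn : Num D κ η σ) (hσ : 0 < σ)
    (hγ : γ ⊆ B) {k : ℕ} (hk : 3 ≤ k) (hg : GC N γ k) {g : Ω → ℝ} (hgm : BM g)
    (hg0 : ∫ s, g s ∂μ = 0) {a : V} (ha : a ∉ B) :
    |phig μ U N g a γ| ≤ (γ.card : ℝ) ^ 3 * (2 ^ (k / 2 + 1) * σ ^ (γ.card - (k / 2 + 1)) *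
      κ ^ (2 * (k / 2 + 1) - k) * Real.sqrt (ck μ U k) * Real.sqrt (∫ s, g s ^ 2 ∂μ)) := by
  obtain ⟨o, ho⟩ : ∃ o : V → ℕ, Function.Injective o :=
    ⟨fun v => (Fintype.equivFin V v : ℕ), fun u v h =>
      (Fintype.equivFin V).injective (Fin.ext h)⟩
  have hκ := hU.κ0
  refine phig_le_of μ hN hU hγ (o := o) hk hg hgm ha (J := k / 2 + 1) (by omega) (by omega)
    (by positivity) ?_ ?_
  · intro L hL hl
    exact expand_step' μ hN hU hγ ho (by omega) hg hgm (fun _ => hg0) ha hL (by omega)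
      (Or.inl rfl) (fun _ => by omega)
  · intro L hL hl
    exact JJ_bound1r μ hN hU hn hσ hγ (by omega) hg hgm ha hL hl (by omega) (by omega)

/-- numbers: the exponent of `σ` and one factor `1 / (2 D)` -/
theorem phig_bound3' {N : V → Finset V} {B γ : Finset V} {D : ℕ} (hN : Bip N B D)
    (hU : Ker μ U κ η) {σ : ℝ} (hn : Num D κ η σ) (hσ : 0 < σ)
    (hγ : γ ⊆ B) {k : ℕ} (hk : 3 ≤ k) (hg : GC N γ k) (hkc : k ≤ γ.card) {g : Ω → ℝ} (hgm : BM g)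
    (hg0 : ∫ s, g s ∂μ = 0) {a : V} (ha : a ∉ B) :
    D * |phig μ U N g a γ| ≤ (γ.card : ℝ) ^ 3 * (2 ^ (k / 2) * σ ^ (γ.card - k / 2) *
      Real.sqrt (ck μ U k) * Real.sqrt (∫ s, g s ^ 2 ∂μ)) := by
  have hκ := hU.κ0
  have hD : (1 : ℝ) ≤ D := by exact_mod_cast hn.hD
  have h1 := phig_bound3 μ hN hU hn hσ hγ hk hg hgm hg0 ha
  set X : ℝ := Real.sqrt (ck μ U k) * Real.sqrt (∫ s, g s ^ 2 ∂μ) with hX
  have hX0 : 0 ≤ X := by positivity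
  -- `D κ ^ (2 J - k) ≤ σ ^ (2 J - k) / 2`
  have hκσ : 2 * D * κ ≤ σ := hn.σκ
  have hκ1 : κ ≤ σ := by nlinarith
  obtain ⟨r, hr⟩ : ∃ r, 2 * (k / 2 + 1) - k = r + 1 := ⟨2 * (k / 2 + 1) - k - 1, by omega⟩
  have h2 : D * κ ^ (r + 1) ≤ σ ^ (r + 1) / 2 := by
    have h3 : κ ^ r ≤ σ ^ r := pow_le_pow_left₀ hκ hκ1 r
    calc D * κ ^ (r + 1) = (2 * D * κ) / 2 * κ ^ r := by ring
      _ ≤ σ / 2 * σ ^ r := by
          refine mul_le_mul (by linarith) h3 (by positivity) (by positivity)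
      _ = σ ^ (r + 1) / 2 := by ring
  have h4 : σ ^ (γ.card - (k / 2 + 1)) * σ ^ (r + 1) ≤ σ ^ (γ.card - k / 2) := by
    rw [← pow_add]
    refine pow_le_pow_of_le_one hσ.le (hn.σ1.trans (by norm_num)) ?_
    omega
  calc D * |phig μ U N g a γ| ≤ D * ((γ.card : ℝ) ^ 3 * (2 ^ (k / 2 + 1) *
        σ ^ (γ.card - (k / 2 + 1)) * κ ^ (2 * (k / 2 + 1) - k) * Real.sqrt (ck μ U k) *
        Real.sqrt (∫ s, g s ^ 2 ∂μ))) := mul_le_mul_of_nonneg_left h1 (by linarith)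
    _ = (γ.card : ℝ) ^ 3 * (2 ^ (k / 2 + 1) * (σ ^ (γ.card - (k / 2 + 1)) *
        (D * κ ^ (r + 1))) * X) := by rw [hr, hX]; ring
    _ ≤ (γ.card : ℝ) ^ 3 * (2 ^ (k / 2 + 1) * (σ ^ (γ.card - (k / 2 + 1)) *
        (σ ^ (r + 1) / 2)) * X) := by gcongr
    _ = (γ.card : ℝ) ^ 3 * (2 ^ (k / 2) * (σ ^ (γ.card - (k / 2 + 1)) *
        σ ^ (r + 1)) * X) := by rw [pow_succ' (2 : ℝ) (k / 2)]; ring
    _ ≤ (γ.card : ℝ) ^ 3 * (2 ^ (k / 2) * σ ^ (γ.card - k / 2) * X) := by gcongr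
    _ = _ := by rw [hX]; ring

end Vale.Agent.P050.Dense
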